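import Crest.Agent.N334.AC.Weg

/-!
# Row 334, S0520 (helper12): changing many far components at once (block lemma)
-/

set_option autoImplicit false
set_option maxHeartbeats 400000
set_option linter.unusedSectionVars false

open Matrix Finset
open scoped ComplexConjugate

namespace Crest.Agent.N334.AC

variable {ι κ : Type} [Fintype ι] [DecidableEq ι] [DecidableEq κ] {A : Matrix ι ι ℂ}
  {w w' : ι → ℂ} {s : Finset κ} {T : κ → Finset ι}

theorem Pm_mul_Pm (R S : Finset ι) : Pm R * Pm S = Pm (R ∩ S) := by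
  rw [Pm, Pm, Pm, diagonal_mul_diagonal]
  congr 1
  funext a
  by_cases h : a ∈ R <;> by_cases h' : a ∈ S <;> simp [h, h']

theorem Pm_empty : Pm (∅ : Finset ι) = 0 := by simp [Pm]

theorem Pm_biUnion (hd : (s : Set κ).PairwiseDisjoint T) :
    Pm (s.biUnion T) = ∑ i ∈ s, Pm (T i) := by
  ext a b
  rw [Matrix.sum_apply]
  rcases eq_or_ne a b with rfl | e
  · simp only [Pm, diagonal_apply_eq]
    split_ifs with h
    · obtain ⟨i, hi, ha⟩ := mem_biUnion.1 h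
      rw [sum_eq_single_of_mem i hi fun j hj e =>
        if_neg (disjoint_left.1 (hd hi hj e.symm) ha), if_pos ha]
    · exact (sum_eq_zero fun i hi => if_neg fun ha => h (mem_biUnion.2 ⟨i, hi, ha⟩)).symm
  · simp [Pm, diagonal_apply_ne _ e]

/-- block diagonal matrices -/
theorem bd_blockdiag (hd : (s : Set κ).PairwiseDisjoint T) {X : κ → Matrix ι ι ℂ} {Λ : ℝ}
    (hm : ∀ i ∈ s, mask (T i) (T i) (X i) = X i) (hX : ∀ i ∈ s, Bd (X i) Λ) :
    Bd (∑ i ∈ s, X i) Λ := fun x => by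
  have h1 : ∀ y : ι → ℂ, ∑ i ∈ s, nsq (cut (T i) y) = nsq (cut (s.biUnion T) y) := fun y => by
    simp only [nsq_cut]
    rw [sum_biUnion hd]
  have h2 : ∀ i ∈ s, cut (T i) ((∑ j ∈ s, X j) *ᵥ x) = X i *ᵥ cut (T i) x := fun i hi => by
    rw [← Pm_mulVec, ← Pm_mulVec, mulVec_mulVec, mulVec_mulVec, mul_sum, sum_eq_single_of_mem i hi]
    · rw [← hm i hi, mask_eq, ← mul_assoc, ← mul_assoc, mul_assoc _ (Pm _) (Pm _), Pm_mul_Pm,
        inter_self]
    · intro j hj e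
      rw [← hm j hj, mask_eq, ← mul_assoc, ← mul_assoc, Pm_mul_Pm,
        disjoint_iff_inter_eq_empty.1 (hd hi hj e.symm), Pm_empty, zero_mul, zero_mul]
  have h3 : cut (s.biUnion T) ((∑ j ∈ s, X j) *ᵥ x) = (∑ j ∈ s, X j) *ᵥ x := by
    rw [← Pm_mulVec, mulVec_mulVec, mul_sum]
    congr 1
    refine sum_congr rfl fun j hj => ?_
    rw [← hm j hj, mask_eq, ← mul_assoc, ← mul_assoc, Pm_mul_Pm,
      inter_eq_right.2 (subset_biUnion_of_mem T hj)]
  rw [← h3, ← h1]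
  refine (sum_le_sum fun i hi => ((h2 i hi).symm ▸ hX i hi _ :
    nsq (cut (T i) ((∑ j ∈ s, X j) *ᵥ x)) ≤ Λ ^ 2 * nsq (cut (T i) x))).trans ?_
  rw [← mul_sum, h1]
  exact mul_le_mul_of_nonneg_left (nsq_cut_le _ _) (sq_nonneg _)

/-- conjugating a block by diagonal weights -/
theorem bd_conj_block {X : Matrix ι ι ℂ} {R : Finset ι} {Λ α β : ℝ} {u v : ι → ℂ}
    (hm : mask R R X = X) (hX : Bd X Λ) (hα : 0 ≤ α) (hβ : 0 ≤ β) (hu : ∀ a ∈ R, ‖u a‖ ≤ α)
    (hv : ∀ a ∈ R, ‖v a‖ ≤ β) : Bd (diagonal u * X * diagonal v) (α * Λ * β) := by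
  have e : diagonal u * X * diagonal v = diagonal (fun a => if a ∈ R then u a else 0) * X *
      diagonal fun a => if a ∈ R then v a else 0 := by
    ext a b
    rw [mul_diagonal, diagonal_mul, mul_diagonal, diagonal_mul, ← hm, mask_apply]
    by_cases ha : a ∈ R <;> by_cases hb : b ∈ R <;> simp [ha, hb]
  rw [e]
  refine ((bd_diagonal fun a => ?_).mul hX).mul (bd_diagonal fun a => ?_) <;> split_ifs with ha
  exacts [hu a ha, by simpa, hv a ha, by simpa]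

theorem mask_conj {X : Matrix ι ι ℂ} {R : Finset ι} (hm : mask R R X = X) (u v : ι → ℂ) :
    mask R R (diagonal u * X * diagonal v) = diagonal u * X * diagonal v := by
  ext a b
  rw [mask_apply, mul_diagonal, diagonal_mul, ← hm, mask_apply]
  split_ifs <;> simp

/-- the change restricted to `R` -/
def pw (w w' : ι → ℂ) (R : Finset ι) : ι → ℂ := fun x => if x ∈ R then w' x else w x

theorem pw_of_notMem {R : Finset ι} (a : ι) (h : a ∉ R) : pw w w' R a = w a := if_neg h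
theorem pw_of_mem {R : Finset ι} (a : ι) (h : a ∈ R) : pw w w' R a = w' a := if_pos h

theorem pw_cls {R U : Finset ι} (h : R ⊆ U) (v : ι → ℝ) : pw w (cls w U v) R = cls w R v := by
  funext a
  by_cases ha : a ∈ R
  · rw [pw_of_mem a ha, cls_of_mem ha, cls_of_mem (h ha)]
  · rw [pw_of_notMem a ha, cls_of_notMem ha]

theorem Dm_pw (R : Finset ι) : Dm w (pw w w' R) = Pm R * Dm w w' := by
  rw [Pm, Dm, Dm, diagonal_mul_diagonal]
  congr 1
  funext a
  by_cases h : a ∈ R <;> simp [h, pw]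

/-- block diagonal `T`-matrix -/
noncomputable def Tb (A : Matrix ι ι ℂ) (w w' : ι → ℂ) (s : Finset κ) (T : κ → Finset ι) :
    Matrix ι ι ℂ := ∑ i ∈ s, Tm A w (pw w w' (T i))

/-- the coupling between different blocks -/
noncomputable def Eb (G : Matrix ι ι ℂ) (s : Finset κ) (T : κ → Finset ι) : Matrix ι ι ℂ :=
  mask (s.biUnion T) (s.biUnion T) G - ∑ i ∈ s, mask (T i) (T i) G

open Classical in
theorem Eb_apply (hd : (s : Set κ).PairwiseDisjoint T) (G : Matrix ι ι ℂ) (a b : ι) :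
    Eb G s T a b = if ∃ i ∈ s, ∃ j ∈ s, i ≠ j ∧ a ∈ T i ∧ b ∈ T j then G a b else 0 := by
  rw [Eb, Matrix.sub_apply, Matrix.sum_apply]
  simp only [mask_apply]
  by_cases h : a ∈ s.biUnion T ∧ b ∈ s.biUnion T
  · obtain ⟨i, hi, ha⟩ := mem_biUnion.1 h.1
    obtain ⟨j, hj, hb⟩ := mem_biUnion.1 h.2
    rw [if_pos h, sum_eq_single_of_mem i hi fun k hk e =>
      if_neg fun hh => disjoint_left.1 (hd hi hk e.symm) ha hh.1]
    rcases eq_or_ne i j with rfl | e
    · rw [if_pos ⟨ha, hb⟩, sub_self, if_neg]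
      rintro ⟨k, hk, l, hl, e, h1, h2⟩
      rcases eq_or_ne i k with rfl | e'
      · exact disjoint_left.1 (hd hk hl e) hb h2
      · exact disjoint_left.1 (hd hi hk e') ha h1
    · rw [if_neg fun hh => disjoint_left.1 (hd hi hj e) hh.2 hb, sub_zero,
        if_pos ⟨i, hi, j, hj, e, ha, hb⟩]
  · have : ∀ i ∈ s, ∀ j ∈ s, ¬ (a ∈ T i ∧ b ∈ T j) := fun i hi j hj hh =>
      h ⟨mem_biUnion.2 ⟨i, hi, hh.1⟩, mem_biUnion.2 ⟨j, hj, hh.2⟩⟩
    rw [if_neg h, sum_eq_zero fun i hi => if_neg (this i hi i hi), sub_zero, if_neg]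
    rintro ⟨i, hi, j, hj, -, hh⟩
    exact this i hi j hj hh

theorem Tm_fix' (h : Adm A w) (h' : Adm A w') :
    Tm A w w' = (1 - Tm A w w' * Gm A w) * Dm w w' := by
  have := congrArg transpose (Tm_fix h h')
  rwa [transpose_mul, transpose_sub, transpose_one, transpose_mul, Tm_symm h', h.G_symm, Dm,
    diagonal_transpose] at this

theorem bd_Tb (hd : (s : Set κ).PairwiseDisjoint T) {Λ : ℝ}
    (hΛ : ∀ i ∈ s, Bd (Tm A w (pw w w' (T i))) Λ) : Bd (Tb A w w' s T) Λ :=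
  bd_blockdiag hd (fun _ _ => mask_Tm pw_of_notMem) hΛ

theorem blk_id (h : Adm A w) (hd : (s : Set κ).PairwiseDisjoint T) (hi : ∀ i ∈ s, Adm A (pw w w' (T i))) :
    ∃ M : Matrix ι ι ℂ, M * Dm w w' = Tb A w w' s T ∧
      M * (1 + Dm w w' * Gm A w) * Pm (s.biUnion T)
        = Pm (s.biUnion T) + Tb A w w' s T * Eb (Gm A w) s T := by
  have e1 : (∑ i ∈ s, (1 - Tm A w (pw w w' (T i)) * Gm A w) * Pm (T i)) * Dm w w'
      = Tb A w w' s T := by
    rw [sum_mul]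
    exact sum_congr rfl fun i hs => by rw [mul_assoc, ← Dm_pw, ← Tm_fix' h (hi i hs)]
  refine ⟨_, e1, ?_⟩
  rw [mul_add, mul_one, ← mul_assoc, e1, add_mul, sum_mul, Tb, sum_mul, sum_mul, sum_mul,
    ← sum_add_distrib]
  conv_rhs => rw [Pm_biUnion hd, ← sum_add_distrib]
  refine sum_congr rfl fun i hs => ?_
  have e2 : Tm A w (pw w w' (T i)) * Pm (T i) = Tm A w (pw w w' (T i)) := by
    rw [← mask_Tm pw_of_notMem, mask_eq, mul_assoc _ (Pm _) (Pm _), Pm_mul_Pm, inter_self]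
  have e3 : Pm (T i) * Eb (Gm A w) s T
      = Pm (T i) * (Gm A w * Pm (s.biUnion T) - Gm A w * Pm (T i)) := by
    rw [Eb, mul_sub, mul_sub, mul_sum, sum_eq_single_of_mem i hs]
    · simp only [mask_eq, ← mul_assoc, Pm_mul_Pm, inter_self,
        inter_eq_left.2 (subset_biUnion_of_mem T hs)]
    · intro j hj e
      rw [mask_eq, ← mul_assoc, ← mul_assoc, Pm_mul_Pm,
        disjoint_iff_inter_eq_empty.1 (hd hs hj e.symm), Pm_empty, zero_mul, zero_mul]
  conv_rhs => rw [← e2, mul_assoc, e3, ← mul_assoc, e2]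
  rw [mul_assoc _ (Pm _) (Pm _), Pm_mul_Pm, inter_eq_left.2 (subset_biUnion_of_mem T hs)]
  simp only [sub_mul, mul_sub, one_mul, mul_assoc]
  abel

/-- **block lemma**, invertibility -/
theorem adm_blk (h : Adm A w) (hd : (s : Set κ).PairwiseDisjoint T)
    (hw : ∀ a, a ∉ s.biUnion T → w' a = w a) (hi : ∀ i ∈ s, Adm A (pw w w' (T i))) {Λ e : ℝ}
    (hΛ : ∀ i ∈ s, Bd (Tm A w (pw w w' (T i))) Λ) (hE : Bd (Eb (Gm A w) s T) e) (h0 : 0 ≤ Λ)
    (he : 0 ≤ e) (hs : Λ * e ≤ 1 / 2) : Adm A w' := by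
  obtain ⟨M, -, e2⟩ := blk_id h hd hi
  refine ⟨h.symm, h.herm, fun a => ?_, isUnit_det_of_inj fun x hx => ?_⟩
  · by_cases ha : a ∈ s.biUnion T
    · obtain ⟨i, hs, ha⟩ := mem_biUnion.1 ha
      simpa only [gam, pw_of_mem a ha] using (hi i hs).diss a
    · rw [gam, hw a ha]; exact h.diss a
  have e : (1 + Gm A w * Dm w w') *ᵥ x = 0 := by
    rw [← h.GH, ← mul_add, ← Hm_eq, ← mulVec_mulVec, hx, mulVec_zero]
  have e3 : Dm w w' *ᵥ x = 0 := ((bd_Tb hd hΛ).mul hE).eq_zero_of_fix (mul_nonneg h0 he) hs (by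
    have := congrArg (fun X => (X * Dm w w') *ᵥ x) e2
    simp only [mul_assoc, add_mul, Pm_mul_Dm hw, one_mul] at this
    rw [← mul_one_add, ← mulVec_mulVec, ← mulVec_mulVec, e, mulVec_zero, mulVec_zero,
      add_mulVec] at this
    rw [mulVec_mulVec, mul_assoc]
    exact eq_neg_of_add_eq_zero_left this.symm)
  rwa [add_mulVec, ← mulVec_mulVec, e3, mulVec_zero, add_zero, one_mulVec] at e

/-- **block lemma**, the identity -/
theorem Tm_blk (h : Adm A w) (h' : Adm A w') (hd : (s : Set κ).PairwiseDisjoint T)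
    (hw : ∀ a, a ∉ s.biUnion T → w' a = w a) (hi : ∀ i ∈ s, Adm A (pw w w' (T i))) :
    Tm A w w' = Tb A w w' s T * (1 - Eb (Gm A w) s T * Tm A w w') := by
  obtain ⟨M, e1, e2⟩ := blk_id h hd hi
  have e3 : Pm (s.biUnion T) * Tm A w w' = Tm A w w' := by
    rw [Tm_fix h h', ← mul_assoc, Pm_mul_Dm hw]
  have e4 : (1 + Dm w w' * Gm A w) * Tm A w w' = Dm w w' := by
    rw [add_mul, one_mul]
    nth_rw 1 [Tm_fix h h']
    rw [mul_sub, mul_one, mul_assoc, sub_add_cancel]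
  have := congrArg (· * Tm A w w') e2
  beta_reduce at this
  rw [mul_assoc, e3, mul_assoc, e4, e1, add_mul, e3, mul_assoc] at this
  rw [mul_sub, mul_one]
  exact eq_sub_of_add_eq this.symm

/-- **block lemma**, norm -/
theorem bd_Tm_blk (h : Adm A w) (h' : Adm A w') (hd : (s : Set κ).PairwiseDisjoint T)
    (hw : ∀ a, a ∉ s.biUnion T → w' a = w a) (hi : ∀ i ∈ s, Adm A (pw w w' (T i))) {Λ e : ℝ}
    (hΛ : ∀ i ∈ s, Bd (Tm A w (pw w w' (T i))) Λ) (hE : Bd (Eb (Gm A w) s T) e) (h0 : 0 ≤ Λ)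
    (he : 0 ≤ e) (hs : Λ * e ≤ 1 / 2) : Bd (Tm A w w') (2 * Λ) :=
  (bd_Tb hd hΛ).of_fix hE h0 he hs (Tm_blk h h' hd hw hi)

/-- **block lemma**, conjugated norm -/
theorem bd_Tm_blk_conj (h : Adm A w) (h' : Adm A w') (hd : (s : Set κ).PairwiseDisjoint T)
    (hw : ∀ a, a ∉ s.biUnion T → w' a = w a) (hi : ∀ i ∈ s, Adm A (pw w w' (T i))) {Λ e : ℝ}
    {u v : ι → ℂ} (huv : ∀ a, v a * u a = 1)
    (hΛ : ∀ i ∈ s, Bd (diagonal u * Tm A w (pw w w' (T i)) * diagonal v) Λ)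
    (hE : Bd (diagonal u * Eb (Gm A w) s T * diagonal v) e) (h0 : 0 ≤ Λ) (he : 0 ≤ e)
    (hs : Λ * e ≤ 1 / 2) : Bd (diagonal u * Tm A w w' * diagonal v) (2 * Λ) := by
  have e1 : diagonal v * diagonal u = (1 : Matrix ι ι ℂ) := by
    rw [diagonal_mul_diagonal, ← diagonal_one]
    exact congrArg _ (funext huv)
  have e2 : ∀ X : Matrix ι ι ℂ, diagonal v * (diagonal u * X) = X := fun X => by
    rw [← mul_assoc, e1, one_mul]
  have hb : Bd (diagonal u * Tb A w w' s T * diagonal v) Λ := by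
    rw [Tb, mul_sum, sum_mul]
    exact bd_blockdiag hd (fun _ _ => mask_conj (mask_Tm pw_of_notMem) u v) hΛ
  refine hb.of_fix hE h0 he hs ?_
  conv_lhs => rw [Tm_blk h h' hd hw hi]
  simp only [mul_sub, sub_mul, mul_one, mul_assoc, e2]

/-! ### closing several non-resonant components -/

section Release

variable {l u : ℝ} {c v : ι → ℝ}

theorem WegOK.adm {R U : Finset ι} (hW : WegOK A w R l c) (hR : R ⊆ U)
    (hv : ∀ a ∈ U, |v a - c a| ≤ l) : Adm A (pw w (cls w U v) R) :=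
  (pw_cls hR v).symm ▸ (hW v fun a ha => hv a (hR ha)).1

theorem WegOK.bd_Tm {R U : Finset ι} (hW : WegOK A w R l c) (hR : R ⊆ U) (hl : 0 < l) (hu0 : 0 ≤ u)
    (hv : ∀ a ∈ U, |v a - c a| ≤ l) (hu : ∀ a ∈ U, ‖v a - w a‖ ≤ u) :
    Bd (Tm A w (pw w (cls w U v) R)) (u + u ^ 2 * (1 / (2 * l))) := by
  rw [pw_cls hR]
  exact AC.bd_Tm (fun _ => cls_of_notMem) hu0 (by positivity)
    (fun a ha => by rw [cls_of_mem ha]; exact hu a (hR ha)) (hW v fun a ha => hv a (hR ha)).2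

/-- simultaneous closing of non-resonant, weakly coupled components -/
theorem release_blk (h : Adm A w) (hd : (s : Set κ).PairwiseDisjoint T) (hl : 0 < l) (hu0 : 0 ≤ u)
    (hW : ∀ i ∈ s, WegOK A w (T i) l c) (hv : ∀ a ∈ s.biUnion T, |v a - c a| ≤ l)
    (hu : ∀ a ∈ s.biUnion T, ‖v a - w a‖ ≤ u) {e : ℝ} (hE : Bd (Eb (Gm A w) s T) e) (he : 0 ≤ e)
    (hs : (u + u ^ 2 * (1 / (2 * l))) * e ≤ 1 / 2) : Adm A (cls w (s.biUnion T) v) ∧
      Bd (Tm A w (cls w (s.biUnion T) v)) (2 * (u + u ^ 2 * (1 / (2 * l)))) := by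
  have h1 := fun i hi => (hW i hi).adm (subset_biUnion_of_mem T hi) hv
  have h2 := fun i hi => (hW i hi).bd_Tm (subset_biUnion_of_mem T hi) hl hu0 hv hu
  have h3 := adm_blk h hd (fun _ => cls_of_notMem) h1 h2 hE (by positivity) he hs
  exact ⟨h3, bd_Tm_blk h h3 hd (fun _ => cls_of_notMem) h1 h2 hE (by positivity) he hs⟩

/-- the same in a twisted norm: `φ` oscillates by at most `D` on every component -/
theorem release_blk_tw (h : Adm A w) (h' : Adm A (cls w (s.biUnion T) v))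
    (hd : (s : Set κ).PairwiseDisjoint T) (hl : 0 < l) (hu0 : 0 ≤ u)
    (hW : ∀ i ∈ s, WegOK A w (T i) l c) (hv : ∀ a ∈ s.biUnion T, |v a - c a| ≤ l)
    (hu : ∀ a ∈ s.biUnion T, ‖v a - w a‖ ≤ u) {φ : ι → ℝ} {D e : ℝ}
    (hφ : ∀ i ∈ s, ∀ a ∈ T i, ∀ b ∈ T i, φ a - φ b ≤ D)
    (hE : Bd (diagonal (fun a => (Real.exp (φ a) : ℂ)) * Eb (Gm A w) s T
      * diagonal fun a => (Real.exp (-φ a) : ℂ)) e) (he : 0 ≤ e)
    (hs : Real.exp (2 * D) * (u + u ^ 2 * (1 / (2 * l))) * e ≤ 1 / 2) :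
    Bd (diagonal (fun a => (Real.exp (φ a) : ℂ)) * Tm A w (cls w (s.biUnion T) v)
      * diagonal fun a => (Real.exp (-φ a) : ℂ))
      (2 * (Real.exp (2 * D) * (u + u ^ 2 * (1 / (2 * l))))) := by
  refine bd_Tm_blk_conj h h' hd (fun _ => cls_of_notMem)
    (fun i hi => (hW i hi).adm (subset_biUnion_of_mem T hi) hv)
    (fun a => by rw [← Complex.ofReal_mul, ← Real.exp_add]; simp) (fun i hi => ?_) hE
    (by positivity) he hs
  have h2 := (hW i hi).bd_Tm (subset_biUnion_of_mem T hi) hl hu0 hv hu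
  rcases (T i).eq_empty_or_nonempty with e0 | ⟨p, hp⟩
  · rw [← mask_Tm pw_of_notMem, mask_eq, e0, Pm_empty, mul_zero, mul_zero, zero_mul]
    intro x
    rw [zero_mulVec]
    simpa [nsq] using mul_nonneg (sq_nonneg _) (nsq_nonneg x)
  have := bd_conj_block (mask_Tm pw_of_notMem) h2 (Real.exp_pos (φ p + D)).le
    (Real.exp_pos (D - φ p)).le (u := fun a => (Real.exp (φ a) : ℂ))
    (v := fun a => (Real.exp (-φ a) : ℂ)) (fun a ha => ?_) fun a ha => ?_
  · rwa [mul_right_comm, ← Real.exp_add, show φ p + D + (D - φ p) = 2 * D by ring] at this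
  all_goals
    rw [Complex.norm_real, Real.norm_of_nonneg (Real.exp_pos _).le, Real.exp_le_exp]
    linarith [hφ i hi a ha p hp, hφ i hi p hp a ha]

end Release

end Crest.Agent.N334.AC
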