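import Crest.Agent.N334.AC.Iface

/-! # S0520: torus geometry (statements helper27, proofs helper32) -/

set_option autoImplicit false
set_option linter.unusedSectionVars false

open Finset

namespace Crest.Agent.N334.AC

variable {d M : ℕ} [NeZero M]

namespace Geo0

/-- distance to `0` on the cycle -/
def n1 (t : ZMod M) : ℕ := t.valMinAbs.natAbs

lemma n1_cast_le (k : ℤ) : n1 (k : ZMod M) ≤ k.natAbs :=
  ZMod.natAbs_min_of_le_div_two M _ _ (ZMod.coe_valMinAbs _) (ZMod.natAbs_valMinAbs_le _)

lemma n1_le (t : ZMod M) : 2 * n1 t ≤ M := by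
  have := ZMod.natAbs_valMinAbs_le t
  unfold n1; omega

omit [NeZero M] in
lemma n1_neg (t : ZMod M) : n1 (-t) = n1 t := ZMod.natAbs_valMinAbs_neg t

omit [NeZero M] in
lemma n1_add (a b : ZMod M) : n1 (a + b) ≤ n1 a + n1 b :=
  (ZMod.natAbs_valMinAbs_add_le a b).trans (Int.natAbs_add_le _ _)

lemma vma_cast {k : ℤ} (h : 2 * k.natAbs < M) : (k : ZMod M).valMinAbs = k :=
  (ZMod.valMinAbs_spec _ _).2 ⟨rfl, by constructor <;> omega⟩

lemma cast_injOn {L : ℕ} (h : 2 * L + 1 ≤ M) :
    Set.InjOn (fun k : ℤ => (k : ZMod M)) (Icc (-(L : ℤ)) L : Finset ℤ) := by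
  intro a ha b hb hab
  simp only [coe_Icc, Set.mem_Icc] at ha hb
  have h1 : (a : ZMod M).valMinAbs = a := vma_cast (by omega)
  have h2 : (b : ZMod M).valMinAbs = b := vma_cast (by omega)
  simp only at hab
  rw [← h1, ← h2, hab]

omit [NeZero M] in
lemma le_tdist (x y : Tor d M) (j : Fin d) : n1 (x j - y j) ≤ tdist x y :=
  Finset.le_sup (f := fun j => (x j - y j).valMinAbs.natAbs) (mem_univ j)

omit [NeZero M] in
lemma tdist_le_iff {x y : Tor d M} {r : ℕ} : tdist x y ≤ r ↔ ∀ j, n1 (x j - y j) ≤ r := by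
  simp [tdist, n1, Finset.sup_le_iff]

lemma card_ball1 (r : ℕ) : (univ.filter fun t : ZMod M => n1 t ≤ r).card = min (2 * r + 1) M := by
  rcases le_total (2 * r + 1) M with h | h
  · rw [min_eq_left h]
    have e : (univ.filter fun t : ZMod M => n1 t ≤ r) =
        (Icc (-(r : ℤ)) r).image fun k : ℤ => (k : ZMod M) := by
      ext t
      simp only [mem_filter, mem_univ, true_and, mem_image, mem_Icc]
      constructor
      · intro ht
        exact ⟨t.valMinAbs, by unfold n1 at ht; omega, ZMod.coe_valMinAbs t⟩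
      · rintro ⟨k, hk, rfl⟩
        exact (n1_cast_le k).trans (by omega)
    rw [e, card_image_of_injOn (cast_injOn h), Int.card_Icc]
    omega
  · rw [min_eq_right h, filter_true_of_mem, card_univ, ZMod.card]
    intro t _
    have := n1_le t
    omega

lemma sum_exp1 {a : ℝ} (h0 : 0 < a) (h1 : a ≤ 1) :
    ∑ t : ZMod M, Real.exp (-a * n1 t) ≤ 3 / a := by
  have key : ∀ n : ℕ, ∑ k ∈ Icc (-(n : ℤ)) n, Real.exp (-a * k.natAbs) ≤
      3 / a - 2 / a * Real.exp (-a * n) := by
    intro n
    induction n with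
    | zero =>
      simp only [Nat.cast_zero, neg_zero, Icc_self, sum_singleton, Int.natAbs_zero, mul_zero,
        Real.exp_zero, mul_one]
      rw [← sub_div, le_div_iff₀ h0]; linarith
    | succ n ih =>
      have e : Icc (-((n + 1 : ℕ) : ℤ)) ((n + 1 : ℕ) : ℤ) =
          insert (-((n + 1 : ℕ) : ℤ)) (insert ((n + 1 : ℕ) : ℤ) (Icc (-(n : ℤ)) n)) := by
        ext k; simp only [mem_Icc, mem_insert]; omega
      rw [e, sum_insert (by simp only [mem_Icc, mem_insert]; omega),
        sum_insert (by simp only [mem_Icc]; omega), Int.natAbs_neg, Int.natAbs_natCast]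
      have h2 : Real.exp (-a * (n : ℝ)) = Real.exp (-a * ((n + 1 : ℕ) : ℝ)) * Real.exp a := by
        rw [← Real.exp_add]; congr 1; push_cast; ring
      have h3 : a + 1 ≤ Real.exp a := Real.add_one_le_exp a
      have h4 := Real.exp_pos (-a * ((n + 1 : ℕ) : ℝ))
      set u := Real.exp (-a * ((n + 1 : ℕ) : ℝ))
      have h5 : 2 / a * (u * (a + 1)) ≤ 2 / a * (u * Real.exp a) := by gcongr
      have h6 : 2 / a * (u * (a + 1)) = 2 * u + 2 / a * u := by field_simp
      rw [h2] at ih
      linarith
  calc ∑ t : ZMod M, Real.exp (-a * n1 t)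
      = ∑ k ∈ univ.image (ZMod.valMinAbs : ZMod M → ℤ), Real.exp (-a * k.natAbs) := by
        rw [sum_image fun x _ y _ h => ZMod.injective_valMinAbs h]; rfl
    _ ≤ ∑ k ∈ Icc (-(M : ℤ)) M, Real.exp (-a * k.natAbs) := by
        refine sum_le_sum_of_subset_of_nonneg (fun k hk => ?_) fun _ _ _ => (Real.exp_pos _).le
        obtain ⟨t, _, rfl⟩ := mem_image.1 hk
        have := n1_le t
        unfold n1 at this
        rw [mem_Icc]; omega
    _ ≤ 3 / a := by
        have := key M
        have h : 0 ≤ 2 / a * Real.exp (-a * M) := by positivity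
        linarith

lemma overlap1 (a b : ZMod M) (L : ℕ) {t : ℕ} (ht : n1 (a - b) ≤ t) :
    ((min (2 * L + 1) M : ℕ) : ℝ) * (1 - (t : ℝ) / (L + 1)) ≤
      ((univ.filter fun p : ZMod M => n1 (a - p) ≤ L ∧ n1 (b - p) ≤ L).card : ℝ) := by
  have hL : (0 : ℝ) < L + 1 := by positivity
  rcases le_total (2 * L + 1) M with h | h
  · rw [min_eq_left h]
    set δ := (a - b).valMinAbs with hδ
    have hab : a - b = (δ : ZMod M) := (ZMod.coe_valMinAbs _).symm
    have hδt : δ.natAbs ≤ t := ht
    have h1 : (Icc (max (-(L : ℤ)) (δ - L)) (min (L : ℤ) (δ + L))).card ≤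
        (univ.filter fun p : ZMod M => n1 (a - p) ≤ L ∧ n1 (b - p) ≤ L).card := by
      refine card_le_card_of_injOn (fun k : ℤ => a - (k : ZMod M)) (fun k hk => ?_) ?_
      · simp only [coe_Icc, Set.mem_Icc] at hk
        simp only [coe_filter, mem_univ, true_and, Set.mem_ofPred_eq, sub_sub_cancel]
        refine ⟨(n1_cast_le k).trans (by omega), ?_⟩
        have : b - (a - (k : ZMod M)) = ((k - δ : ℤ) : ZMod M) := by
          push_cast; rw [← hab]; ring
        rw [this]
        exact (n1_cast_le _).trans (by omega)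
      · intro k hk k' hk' e
        simp only [coe_Icc, Set.mem_Icc] at hk hk'
        refine cast_injOn h ?_ ?_ (sub_right_injective e)
        · simp only [coe_Icc, Set.mem_Icc]; omega
        · simp only [coe_Icc, Set.mem_Icc]; omega
    rw [Int.card_Icc] at h1
    have h2 : 2 * L + 1 ≤
        (univ.filter fun p : ZMod M => n1 (a - p) ≤ L ∧ n1 (b - p) ≤ L).card + t := by omega
    have h3 : ((2 * L + 1 : ℕ) : ℝ) ≤
        ((univ.filter fun p : ZMod M => n1 (a - p) ≤ L ∧ n1 (b - p) ≤ L).card : ℝ) + t := by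
      exact_mod_cast h2
    have h4 : (t : ℝ) ≤ ((2 * L + 1 : ℕ) : ℝ) * ((t : ℝ) / (L + 1)) := by
      rw [← mul_div_assoc, le_div_iff₀ hL]
      push_cast
      nlinarith [Nat.cast_nonneg (α := ℝ) t, Nat.cast_nonneg (α := ℝ) L]
    linarith
  · rw [min_eq_right h, filter_true_of_mem, card_univ, ZMod.card]
    · have : 0 ≤ (t : ℝ) / (L + 1) := by positivity
      nlinarith [Nat.cast_nonneg (α := ℝ) M]
    · intro p _
      have h1 := n1_le (a - p)
      have h2 := n1_le (b - p)
      omega

end Geo0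

open Geo0

lemma tdist_self (x : Tor d M) : tdist x x = 0 := by
  simp [tdist]
lemma tdist_comm (x y : Tor d M) : tdist x y = tdist y x := by
  unfold tdist; congr 1; funext j
  rw [← neg_sub]; exact ZMod.natAbs_valMinAbs_neg _
lemma tdist_triangle (x y z : Tor d M) : tdist x z ≤ tdist x y + tdist y z := by
  refine tdist_le_iff.2 fun j => ?_
  rw [← sub_add_sub_cancel (x j) (y j) (z j)]
  exact (n1_add _ _).trans (add_le_add (le_tdist x y j) (le_tdist y z j))
lemma tdist_eq_zero {x y : Tor d M} : tdist x y = 0 ↔ x = y := by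
  refine ⟨fun h => funext fun j => ?_, fun h => h ▸ tdist_self x⟩
  have := le_tdist x y j
  rw [h, Nat.le_zero, n1, Int.natAbs_eq_zero, ZMod.valMinAbs_eq_zero, sub_eq_zero] at this
  exact this
lemma tdist_add_right (x y u : Tor d M) : tdist (x + u) (y + u) = tdist x y := by
  simp [tdist]
lemma tdist_sub (x y : Tor d M) : tdist (x - y) 0 = tdist x y := by
  simp [tdist]
lemma two_tdist_le (x y : Tor d M) : 2 * tdist x y ≤ M := by
  have : tdist x y ≤ M / 2 := tdist_le_iff.2 fun j => ZMod.natAbs_valMinAbs_le _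
  omega
lemma mem_tball {p x : Tor d M} {r : ℕ} : x ∈ tball p r ↔ tdist x p ≤ r := by
  simp [tball]
lemma self_mem_tball (p : Tor d M) (r : ℕ) : p ∈ tball p r := by
  rw [mem_tball, tdist_self]; exact Nat.zero_le _
lemma tball_mono (p : Tor d M) {r r' : ℕ} (h : r ≤ r') : tball p r ⊆ tball p r' :=
  fun _ hx => mem_tball.2 ((mem_tball.1 hx).trans h)
lemma tball_subset {p q : Tor d M} {r r' : ℕ} (h : tdist p q + r ≤ r') : tball p r ⊆ tball q r' := by
  intro x hx
  have h1 := mem_tball.1 hx
  have h2 := tdist_triangle x p q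
  exact mem_tball.2 (by omega)
lemma disjoint_tball {p q : Tor d M} {r r' : ℕ} (h : r + r' < tdist p q) :
    Disjoint (tball p r) (tball q r') := by
  refine disjoint_left.2 fun x hp hq => ?_
  have h1 := mem_tball.1 hp
  have h2 := mem_tball.1 hq
  have h3 := tdist_triangle p x q
  rw [tdist_comm p x] at h3
  omega
lemma card_tball (p : Tor d M) (r : ℕ) : ((tball p r).card : ℝ) = vol d M r := by
  rw [vol]
  congr 1
  refine card_bijective (fun x => x - p) (Equiv.subRight p).bijective fun x => ?_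
  rw [mem_tball, mem_tball, tdist_sub]
lemma vol_eq (r : ℕ) : vol d M r = ((min (2 * r + 1) M : ℕ) : ℝ) ^ d := by
  have e : tball (0 : Tor d M) r =
      Fintype.piFinset fun _ : Fin d => univ.filter fun t : ZMod M => n1 t ≤ r := by
    ext x
    simp [mem_tball, tdist_le_iff]
  rw [vol, e, Fintype.card_piFinset, prod_const, card_ball1, card_univ, Fintype.card_fin,
    Nat.cast_pow]
lemma one_le_vol (r : ℕ) : 1 ≤ vol d M r := by
  rw [vol]
  exact_mod_cast card_pos.2 ⟨0, self_mem_tball 0 r⟩
lemma vol_le (r : ℕ) : vol d M r ≤ (2 * r + 1) ^ d := by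
  rw [vol_eq]
  gcongr
  exact_mod_cast min_le_left _ _
lemma vol_mono {r r' : ℕ} (h : r ≤ r') : vol d M r ≤ vol d M r' := by
  rw [vol, vol]
  exact_mod_cast card_le_card (tball_mono 0 h)
lemma vol_mul_le (k r : ℕ) (hk : 1 ≤ k) : vol d M (k * r) ≤ (k : ℝ) ^ d * vol d M r := by
  rw [vol_eq, vol_eq, ← mul_pow]
  gcongr
  have : min (2 * (k * r) + 1) M ≤ k * min (2 * r + 1) M := by
    rcases le_total (2 * r + 1) M with h | h
    · rw [min_eq_left h]
      exact (min_le_left _ _).trans (by nlinarith)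
    · rw [min_eq_right h]
      exact (min_le_right _ _).trans (Nat.le_mul_of_pos_left _ hk)
  exact_mod_cast this
/-- number of `p` whose ball contains `x` -/
lemma card_filter_mem_tball (x : Tor d M) (r : ℕ) :
    ((univ.filter fun p => x ∈ tball p r).card : ℝ) = vol d M r := by
  rw [← card_tball x r]
  congr 2
  ext p
  rw [mem_filter, mem_tball, mem_tball, tdist_comm]
  simp
lemma Sep.mono {R R' : ℕ} {S S' : Finset (Tor d M)} (h : Sep R S) (hR : R' ≤ R) (hS : S' ⊆ S) :
    Sep R' S' := fun x hx y hy hxy => hR.trans (h x (hS hx) y (hS hy) hxy)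
/-- packing: an `R`-separated set has at most `(2k+1)^d` points in a ball of radius `< k R` -/
lemma card_sep_le {R k r : ℕ} {S : Finset (Tor d M)} (h : Sep R S) (hR : 1 ≤ R) (hr : r < k * R)
    (p : Tor d M) : (S ∩ tball p r).card ≤ (2 * k + 1) ^ d := by
  have e : (2 * k + 1) ^ d = (Fintype.piFinset fun _ : Fin d => range (2 * k + 1)).card := by
    simp
  rw [e]
  refine card_le_card_of_injOn
    (fun x j => ((x j - p j).valMinAbs + r).toNat / R) (fun x hx => ?_) ?_
  · simp only [coe_inter, Set.mem_inter_iff, mem_coe, mem_tball, tdist_le_iff] at hx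
    simp only [mem_coe, Fintype.mem_piFinset, mem_range]
    intro j
    have h1 := hx.2 j
    unfold n1 at h1
    rw [Nat.div_lt_iff_lt_mul hR]
    have : ((x j - p j).valMinAbs + r).toNat ≤ 2 * r := by omega
    nlinarith
  · intro x hx y hy e
    simp only [coe_inter, Set.mem_inter_iff, mem_coe, mem_tball, tdist_le_iff] at hx hy
    by_contra hxy
    have h1 := h x hx.1 y hy.1 hxy
    have h2 : tdist x y ≤ R - 1 := by
      refine tdist_le_iff.2 fun j => ?_
      have e1 : x j - y j =
          (((x j - p j).valMinAbs - (y j - p j).valMinAbs : ℤ) : ZMod M) := by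
        push_cast; ring
      rw [e1]
      refine (n1_cast_le _).trans ?_
      have hx' := hx.2 j
      have hy' := hy.2 j
      unfold n1 at hx' hy'
      have e2 := congrFun e j
      simp only at e2
      have a1 := Nat.div_add_mod ((x j - p j).valMinAbs + r).toNat R
      have a2 := Nat.div_add_mod ((y j - p j).valMinAbs + r).toNat R
      have b1 := Nat.mod_lt ((x j - p j).valMinAbs + r).toNat hR
      have b2 := Nat.mod_lt ((y j - p j).valMinAbs + r).toNat hR
      rw [e2] at a1
      omega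
    omega
lemma Sep.subsingleton {R : ℕ} {S : Finset (Tor d M)} (h : Sep R S) (hR : M < 2 * R) {x y : Tor d M}
    (hx : x ∈ S) (hy : y ∈ S) : x = y := by
  by_contra hxy
  have h1 := h x hx y hy hxy
  have h2 := two_tdist_le x y
  omega
lemma sum_exp_le {θ : ℝ} (h0 : 0 < θ) (h1 : θ ≤ 1) (p : Tor d M) :
    ∑ x, Real.exp (-θ * tdist x p) ≤ (3 * d / θ) ^ d := by
  rcases Nat.eq_zero_or_pos d with rfl | hd
  · simp [tdist]
  have hd' : (1 : ℝ) ≤ d := by exact_mod_cast hd
  have ha0 : 0 < θ / d := by positivity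
  have ha1 : θ / d ≤ 1 := by rw [div_le_one (by positivity)]; linarith
  calc ∑ x : Tor d M, Real.exp (-θ * tdist x p)
      ≤ ∑ x : Tor d M, ∏ j, Real.exp (-(θ / d) * n1 (x j - p j)) := by
        refine sum_le_sum fun x _ => ?_
        rw [← Real.exp_sum, Real.exp_le_exp, ← mul_sum]
        have : ∑ j, (n1 (x j - p j) : ℝ) ≤ d * tdist x p := by
          calc ∑ j, (n1 (x j - p j) : ℝ) ≤ ∑ _j : Fin d, (tdist x p : ℝ) :=
                sum_le_sum fun j _ => by exact_mod_cast le_tdist x p j
            _ = d * tdist x p := by simp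
        have h2 := mul_le_mul_of_nonneg_left this ha0.le
        have h3 : θ / d * (d * tdist x p) = θ * tdist x p := by field_simp
        linarith
    _ = ∏ j : Fin d, ∑ t : ZMod M, Real.exp (-(θ / d) * n1 (t - p j)) := by
        rw [prod_univ_sum, Fintype.piFinset_univ]
    _ ≤ ∏ _j : Fin d, 3 / (θ / d) := by
        refine prod_le_prod (fun j _ => sum_nonneg fun _ _ => (Real.exp_pos _).le) fun j _ => ?_
        exact (Equiv.sum_comp (Equiv.subRight (p j))
          fun t => Real.exp (-(θ / d) * n1 t)).trans_le (sum_exp1 ha0 ha1)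
    _ = (3 * d / θ) ^ d := by
        rw [prod_const, card_univ, Fintype.card_fin]
        congr 1; field_simp
lemma sum_exp_tail_le {θ : ℝ} (h0 : 0 < θ) (h1 : θ ≤ 1) (p : Tor d M) (D : ℕ) :
    ∑ x ∈ univ.filter (fun x => D < tdist x p), Real.exp (-θ * tdist x p) ≤
      Real.exp (-θ * D / 2) * (6 * d / θ) ^ d := by
  have h2 := sum_exp_le (θ := θ / 2) (by positivity) (by linarith) p
  have e : (3 * d / (θ / 2) : ℝ) = 6 * d / θ := by field_simp; ring
  rw [e] at h2
  calc ∑ x ∈ univ.filter (fun x => D < tdist x p), Real.exp (-θ * tdist x p)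
      ≤ ∑ x ∈ univ.filter (fun x => D < tdist x p),
          Real.exp (-θ * D / 2) * Real.exp (-(θ / 2) * tdist x p) := by
        refine sum_le_sum fun x hx => ?_
        have : (D : ℝ) ≤ tdist x p := by exact_mod_cast (mem_filter.1 hx).2.le
        rw [← Real.exp_add, Real.exp_le_exp]
        nlinarith
    _ ≤ ∑ x, Real.exp (-θ * D / 2) * Real.exp (-(θ / 2) * tdist x p) :=
        sum_le_sum_of_subset_of_nonneg (subset_univ _) fun _ _ _ => by positivity
    _ ≤ _ := by
        rw [← mul_sum]
        exact mul_le_mul_of_nonneg_left h2 (Real.exp_pos _).le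
/-- maximal separated subsets cover -/
lemma exists_sep_cover (P : Finset (Tor d M)) (R : ℕ) :
    ∃ S ⊆ P, Sep (R + 1) S ∧ ∀ p ∈ P, ∃ q ∈ S, tdist p q ≤ R := by
  classical
  obtain ⟨S, hS, hmax⟩ := exists_max_image (P.powerset.filter fun S => Sep (R + 1) S) card
    ⟨∅, by simp [Sep]⟩
  rw [mem_filter, mem_powerset] at hS
  refine ⟨S, hS.1, hS.2, fun p hp => ?_⟩
  by_contra hne
  push Not at hne
  have hpS : p ∉ S := fun h => by
    have := hne p h
    rw [tdist_self] at this
    omega
  have := hmax (insert p S) (by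
    rw [mem_filter, mem_powerset]
    refine ⟨insert_subset hp hS.1, fun x hx y hy hxy => ?_⟩
    rcases mem_insert.1 hx with rfl | hx' <;> rcases mem_insert.1 hy with rfl | hy'
    · exact absurd rfl hxy
    · exact hne y hy'
    · rw [tdist_comm]; exact hne x hx'
    · exact hS.2 x hx' y hy' hxy)
  rw [card_insert_of_notMem hpS] at this
  omega
/-- observers: `n` points on an axis through the origin, `s`-separated, in the core -/
lemma exists_obs (hd : 1 ≤ d) (n s : ℕ) (hs : 1 ≤ s) (h : 4 * (n * s) ≤ M) :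
    ∃ X : Finset (Tor d M), X.card = n ∧ Sep s X ∧ X ⊆ tball 0 (n * s) ∧ Disjoint X (absb d M) := by
  have hM : 0 < M := Nat.pos_of_ne_zero (NeZero.ne M)
  let f : ℕ → Tor d M := fun i _ => ((i * s : ℕ) : ZMod M)
  have hle : ∀ i ∈ range n, i * s ≤ n * s := fun i hi =>
    Nat.mul_le_mul_right s (mem_range.1 hi).le
  have hsep : ∀ i ∈ range n, ∀ i' ∈ range n, i ≠ i' → s ≤ tdist (f i) (f i') := by
    intro i hi i' hi' hne
    refine le_trans ?_ (le_tdist (f i) (f i') ⟨0, hd⟩)
    have e : f i ⟨0, hd⟩ - f i' ⟨0, hd⟩ = ((((i * s : ℕ) : ℤ) - ((i' * s : ℕ) : ℤ) : ℤ) : ZMod M) := by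
      simp only [f, Int.cast_sub, Int.cast_natCast]
    have h1 := hle i hi
    have h2 := hle i' hi'
    rw [e, n1, vma_cast (by omega)]
    rcases lt_or_gt_of_ne hne with hlt | hlt
    · have : (i + 1) * s ≤ i' * s := Nat.mul_le_mul_right s hlt
      rw [add_mul, one_mul] at this
      omega
    · have : (i' + 1) * s ≤ i * s := Nat.mul_le_mul_right s hlt
      rw [add_mul, one_mul] at this
      omega
  have hn : ∀ i ∈ range n, ∀ j, n1 (f i j) ≤ n * s := by
    intro i hi j
    have := n1_cast_le (M := M) ((i * s : ℕ) : ℤ)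
    rw [Int.cast_natCast, Int.natAbs_natCast] at this
    exact this.trans (hle i hi)
  refine ⟨(range n).image f, ?_, ?_, ?_, ?_⟩
  · rw [card_image_of_injOn, card_range]
    intro i hi i' hi' e
    by_contra hne
    have := hsep i hi i' hi' hne
    rw [e, tdist_self] at this
    omega
  · intro x hx y hy hxy
    obtain ⟨i, hi, rfl⟩ := mem_image.1 hx
    obtain ⟨i', hi', rfl⟩ := mem_image.1 hy
    exact hsep i hi i' hi' fun e => hxy (e ▸ rfl)
  · intro x hx
    obtain ⟨i, hi, rfl⟩ := mem_image.1 hx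
    rw [mem_tball, tdist_le_iff]
    intro j
    simpa using hn i hi j
  · refine disjoint_left.2 fun x hx hx' => ?_
    obtain ⟨i, hi, rfl⟩ := mem_image.1 hx
    obtain ⟨j, _, hj⟩ := (mem_filter.1 hx').2
    have := hn i hi j
    unfold n1 at this
    omega
/-- sliding kernel: fraction of balls of radius `L` containing both points -/
lemma overlap_ge (x y : Tor d M) (L : ℕ) :
    vol d M L * (1 - d * (tdist x y : ℝ) / (L + 1)) ≤
      ((univ.filter fun p => x ∈ tball p L ∧ y ∈ tball p L).card : ℝ) := by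
  have hv : 0 ≤ vol d M L := zero_le_one.trans (one_le_vol L)
  set u : ℝ := (tdist x y : ℝ) / (L + 1) with hu
  have hu0 : 0 ≤ u := by positivity
  rw [mul_div_assoc, ← hu]
  rcases le_or_gt u 1 with h1 | h1
  · have e : (univ.filter fun p => x ∈ tball p L ∧ y ∈ tball p L) =
        Fintype.piFinset fun j : Fin d =>
          univ.filter fun t : ZMod M => n1 (x j - t) ≤ L ∧ n1 (y j - t) ≤ L := by
      ext p
      simp [mem_tball, tdist_le_iff, forall_and]
    rw [e, Fintype.card_piFinset, Nat.cast_prod]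
    have hb := one_add_mul_le_pow (a := -u) (by linarith) d
    calc vol d M L * (1 - d * u) ≤ vol d M L * (1 - u) ^ d := by
          refine mul_le_mul_of_nonneg_left ?_ hv
          rw [sub_eq_add_neg 1 u]; linarith
      _ = ∏ _j : Fin d, ((min (2 * L + 1) M : ℕ) : ℝ) * (1 - u) := by
          rw [prod_const, card_univ, Fintype.card_fin, vol_eq, mul_pow]
      _ ≤ _ := by
          refine prod_le_prod (fun j _ => mul_nonneg (Nat.cast_nonneg _) (by linarith))
            fun j _ => overlap1 (x j) (y j) L (le_tdist x y j)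
  · rcases Nat.eq_zero_or_pos d with rfl | hd
    · exfalso
      have : tdist x y = 0 := by simp [tdist]
      rw [hu, this] at h1
      norm_num at h1
    · have hd' : (1 : ℝ) ≤ d := by exact_mod_cast hd
      refine le_trans ?_ (Nat.cast_nonneg _)
      exact mul_nonpos_of_nonneg_of_nonpos hv (by nlinarith)

end Crest.Agent.N334.AC
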