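import Crest.Agent.N334.AC.RelF

/-!
# Row 334, S0520 (helper12): Ward identity, resolvent identities, simultaneous closing
-/

set_option autoImplicit false
set_option maxHeartbeats 400000
set_option linter.unusedSectionVars false

open Matrix Finset
open scoped ComplexConjugate

namespace Crest.Agent.N334.AC

variable {ι : Type} [Fintype ι] [DecidableEq ι] {A : Matrix ι ι ℂ} {w w' : ι → ℂ}

/-! ### basics -/

theorem Adm.GH (h : Adm A w) : Gm A w * Hm A w = 1 := nonsing_inv_mul _ h.inv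
theorem Adm.HG (h : Adm A w) : Hm A w * Gm A w = 1 := mul_nonsing_inv _ h.inv

theorem Adm.G_symm (h : Adm A w) : (Gm A w)ᵀ = Gm A w := by
  rw [Gm, transpose_nonsing_inv, Hm, transpose_add, h.symm.eq, diagonal_transpose]

theorem Adm.G_comm (h : Adm A w) (a b : ι) : Gm A w a b = Gm A w b a :=
  (congrFun (congrFun h.G_symm a) b).symm

theorem Adm.K_symm (h : Adm A w) : (Km A w)ᵀ = Km A w := by
  ext a b
  rw [transpose_apply, Km, Km, h.G_comm]
  ring

theorem im_form (hA : A.IsHermitian) (w x : ι → ℂ) :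
    (star x ⬝ᵥ Hm A w *ᵥ x).im = -∑ a, gam w a * ‖x a‖ ^ 2 := by
  have h1 : (star x ⬝ᵥ A *ᵥ x).im = 0 := hA.im_star_dotProduct_mulVec_self x
  rw [Hm, add_mulVec, dotProduct_add, Complex.add_im, h1, zero_add, dotProduct, Complex.im_sum,
    ← sum_neg_distrib]
  refine sum_congr rfl fun a _ => ?_
  rw [mulVec_diagonal, Pi.star_apply, mul_left_comm, RCLike.star_def, Complex.conj_mul', gam,
    ← Complex.ofReal_pow, Complex.im_mul_ofReal, neg_mul, neg_neg]

theorem Adm.ward_col (h : Adm A w) (b : ι) :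
    ∑ a, gam w a * ‖Gm A w a b‖ ^ 2 = (Gm A w b b).im := by
  simpa [← Pi.single_star] using Gm_ward h (Pi.single b 1)

theorem Adm.im_nonneg (h : Adm A w) (b : ι) : 0 ≤ (Gm A w b b).im :=
  h.ward_col b ▸ sum_nonneg fun a _ => mul_nonneg (h.diss a) (by positivity)

theorem Adm.bd_K (h : Adm A w) : Bd (Km A w) 1 := h.wardK.bd

theorem isUnit_det_of_inj {M : Matrix ι ι ℂ} (h : ∀ x, M *ᵥ x = 0 → x = 0) : IsUnit M.det :=
  isUnit_iff_ne_zero.2 fun e => by
    obtain ⟨v, hv, h0⟩ := exists_mulVec_eq_zero_iff.2 e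
    exact hv (h v h0)

/-! ### resolvent identities -/

/-- the change of the diagonal -/
def Dm (w w' : ι → ℂ) : Matrix ι ι ℂ := diagonal fun a => w' a - w a

theorem Hm_eq (A : Matrix ι ι ℂ) (w w' : ι → ℂ) : Hm A w' = Hm A w + Dm w w' := by
  rw [Hm, Hm, Dm, add_assoc, diagonal_add]
  simp

theorem res1 (h : Adm A w) (h' : Adm A w') : Gm A w' = Gm A w - Gm A w * Dm w w' * Gm A w' := by
  have : Gm A w * Hm A w' * Gm A w' = Gm A w := by rw [mul_assoc, h'.HG, mul_one]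
  rw [Hm_eq A w w', mul_add, h.GH, add_mul, one_mul] at this
  exact eq_sub_of_add_eq this

theorem res2 (h : Adm A w) (h' : Adm A w') : Gm A w' = Gm A w - Gm A w' * Dm w w' * Gm A w := by
  have : Gm A w' * Hm A w' * Gm A w = Gm A w := by rw [h'.GH, one_mul]
  rw [Hm_eq A w w', mul_add, add_mul, mul_assoc, h.HG, mul_one] at this
  exact eq_sub_of_add_eq this

/-- the `T`-matrix of the change `w → w'` -/
noncomputable def Tm (A : Matrix ι ι ℂ) (w w' : ι → ℂ) : Matrix ι ι ℂ :=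
  Dm w w' - Dm w w' * Gm A w' * Dm w w'

theorem res_Tm (h : Adm A w) (h' : Adm A w') :
    Gm A w' = Gm A w - Gm A w * Tm A w w' * Gm A w := by
  calc Gm A w' = Gm A w - Gm A w * Dm w w' * Gm A w' := res1 h h'
    _ = Gm A w - Gm A w * Dm w w' * (Gm A w - Gm A w' * Dm w w' * Gm A w) := by rw [← res2 h h']
    _ = _ := by simp only [Tm, mul_sub, sub_mul, mul_assoc]

theorem Tm_fix (h : Adm A w) (h' : Adm A w') :
    Tm A w w' = Dm w w' * (1 - Gm A w * Tm A w w') := by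
  have : Gm A w * Tm A w w' = Gm A w' * Dm w w' := by
    rw [Tm, mul_sub, ← mul_assoc, ← mul_assoc, ← sub_mul, ← res1 h h']
  rw [this, mul_sub, mul_one, ← mul_assoc, Tm]

theorem Tm_symm (h' : Adm A w') : (Tm A w w')ᵀ = Tm A w w' := by
  simp only [Tm, Dm, transpose_sub, transpose_mul, diagonal_transpose, h'.G_symm, mul_assoc]

/-- the projection on `T` -/
def Pm (T : Finset ι) : Matrix ι ι ℂ := diagonal fun a => if a ∈ T then 1 else 0

theorem mask_eq (R T : Finset ι) (K : Matrix ι ι ℂ) : mask R T K = Pm R * K * Pm T := by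
  ext a b
  rw [mask_apply, Pm, Pm, mul_diagonal, diagonal_mul]
  by_cases ha : a ∈ R <;> by_cases hb : b ∈ T <;> simp [ha, hb]

theorem Pm_mulVec (T : Finset ι) (x : ι → ℂ) : Pm T *ᵥ x = cut T x := by
  funext a
  rw [Pm, mulVec_diagonal, cut]
  split_ifs <;> simp

theorem Pm_mul_Dm {T : Finset ι} (h : ∀ a, a ∉ T → w' a = w a) : Pm T * Dm w w' = Dm w w' := by
  rw [Pm, Dm, diagonal_mul_diagonal]
  congr 1
  funext a
  by_cases ha : a ∈ T <;> simp [ha, h]

theorem Dm_mul_Pm {T : Finset ι} (h : ∀ a, a ∉ T → w' a = w a) : Dm w w' * Pm T = Dm w w' := by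
  rw [Pm, Dm, diagonal_mul_diagonal]
  congr 1
  funext a
  by_cases ha : a ∈ T <;> simp [ha, h]

theorem Tm_eq_mask {T : Finset ι} (h : ∀ a, a ∉ T → w' a = w a) :
    Tm A w w' = Dm w w' - Dm w w' * mask T T (Gm A w') * Dm w w' := by
  rw [mask_eq, ← mul_assoc, ← mul_assoc, Dm_mul_Pm h, mul_assoc _ (Pm T), Pm_mul_Dm h, Tm]

theorem mask_Tm {T : Finset ι} (h : ∀ a, a ∉ T → w' a = w a) :
    mask T T (Tm A w w') = Tm A w w' := by
  rw [mask_eq, Tm, mul_sub, sub_mul, ← mul_assoc, ← mul_assoc, Pm_mul_Dm h, Dm_mul_Pm h,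
    mul_assoc _ (Dm w w') (Pm T), Dm_mul_Pm h]

theorem bd_Tm {T : Finset ι} (h : ∀ a, a ∉ T → w' a = w a) {u g : ℝ} (hu0 : 0 ≤ u) (hg0 : 0 ≤ g)
    (hu : ∀ a ∈ T, ‖w' a - w a‖ ≤ u) (hg : Bd (mask T T (Gm A w')) g) :
    Bd (Tm A w w') (u + u ^ 2 * g) := by
  have hD : Bd (Dm w w') u := bd_diagonal fun a => by
    by_cases ha : a ∈ T
    · exact hu a ha
    · simpa [h a ha] using hu0
  rw [Tm_eq_mask h, show u ^ 2 * g = u * g * u by ring]
  exact hD.sub ((hD.mul hg).mul hD) hu0 (by positivity)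

/-- the `T`-matrix in `K`-units -/
noncomputable def Tk (A : Matrix ι ι ℂ) (w w' : ι → ℂ) : Matrix ι ι ℂ :=
  -(diagonal (fun a => ((√(gam w a))⁻¹ : ℂ)) * Tm A w w' * diagonal fun a => ((√(gam w a))⁻¹ : ℂ))

theorem Tk_symm (h' : Adm A w') : (Tk A w w')ᵀ = Tk A w w' := by
  simp only [Tk, transpose_neg, transpose_mul, diagonal_transpose, Tm_symm h', mul_assoc]

theorem mask_Tk {T : Finset ι} (h : ∀ a, a ∉ T → w' a = w a) :
    mask T T (Tk A w w') = Tk A w w' := by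
  ext a b
  rw [mask_apply, Tk, neg_apply, mul_diagonal, diagonal_mul, ← mask_Tm h, mask_apply]
  split_ifs <;> simp

theorem bd_Tk {T : Finset ι} (h : ∀ a, a ∉ T → w' a = w a) {γ Λ : ℝ} (hγ : 0 < γ)
    (hT : ∀ a ∈ T, γ ≤ gam w a) (hΛ : Bd (Tm A w w') Λ) : Bd (Tk A w w') (Λ / γ) := by
  have e : Tk A w w' = -(diagonal (fun a => if a ∈ T then ((√(gam w a))⁻¹ : ℂ) else 0) * Tm A w w'
      * diagonal fun a => if a ∈ T then ((√(gam w a))⁻¹ : ℂ) else 0) := by
    ext a b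
    rw [Tk, neg_apply, neg_apply, mul_diagonal, diagonal_mul, mul_diagonal, diagonal_mul,
      ← mask_Tm h, mask_apply]
    by_cases ha : a ∈ T <;> by_cases hb : b ∈ T <;> simp [ha, hb]
  have hS : Bd (diagonal fun a => if a ∈ T then ((√(gam w a))⁻¹ : ℂ) else 0) (√γ)⁻¹ :=
    bd_diagonal fun a => by
      split_ifs with ha
      · rw [norm_inv, Complex.norm_real, Real.norm_of_nonneg (Real.sqrt_nonneg _)]
        exact inv_anti₀ (Real.sqrt_pos.2 hγ) (Real.sqrt_le_sqrt (hT a ha))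
      · simp
  have : Λ / γ = (√γ)⁻¹ * Λ * (√γ)⁻¹ := by
    rw [mul_right_comm, ← mul_inv, Real.mul_self_sqrt hγ.le, div_eq_inv_mul]
  rw [e, this]
  exact ((hS.mul hΛ).mul hS).neg

/-- **simultaneous closing**: off `T`, `K' = K + W Tk Wᵀ` with `W = K[Tᶜ, T]` -/
theorem K_close (h : Adm A w) (h' : Adm A w') {T : Finset ι} (hw : ∀ a, a ∉ T → w' a = w a)
    (hT : ∀ a ∈ T, 0 < gam w a) : mask Tᶜ Tᶜ (Km A w') = mask Tᶜ Tᶜ (Km A w)
      + mask Tᶜ T (Km A w) * Tk A w w' * (mask Tᶜ T (Km A w))ᵀ := by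
  have e1 : Pm Tᶜ * diagonal (fun a => (√(gam w' a) : ℂ))
      = Pm Tᶜ * diagonal fun a => (√(gam w a) : ℂ) := by
    rw [Pm, diagonal_mul_diagonal, diagonal_mul_diagonal]
    congr 1
    funext a
    by_cases ha : a ∈ T <;> simp [ha, gam, hw]
  have e2 := congrArg transpose e1
  have pt : ∀ S : Finset ι, (Pm S)ᵀ = Pm S := fun S => diagonal_transpose _
  simp only [transpose_mul, diagonal_transpose, pt] at e2
  have e3 : diagonal (fun a => (√(gam w a) : ℂ)) * (Pm T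
      * diagonal fun a => ((√(gam w a))⁻¹ : ℂ)) = Pm T := by
    rw [Pm, diagonal_mul_diagonal, diagonal_mul_diagonal]
    congr 1
    funext a
    by_cases ha : a ∈ T
    · simp [ha, mul_inv_cancel₀ (Complex.ofReal_ne_zero.2 (Real.sqrt_pos.2 (hT a ha)).ne')]
    · simp [ha]
  have e4 := congrArg transpose e3
  simp only [transpose_mul, diagonal_transpose, pt] at e4
  have e5 := mask_Tm (A := A) hw
  rw [mask_eq] at e5
  simp only [mask_eq, Km_eq, Tk, transpose_mul, diagonal_transpose, pt, h.G_symm]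
  rw [mul_assoc _ _ (Pm Tᶜ), mul_assoc _ _ (Pm Tᶜ), e2, ← mul_assoc, ← mul_assoc, ← mul_assoc, e1,
    res_Tm h h']
  conv_lhs => rw [← e5]
  conv_lhs => rw [← e3]; enter [1, 1, 2, 2, 1, 2, 2]; rw [e3, ← e4]
  simp only [mul_add, add_mul, mul_neg, neg_mul, mul_assoc, sub_eq_add_neg]

theorem K_close' (h : Adm A w) (h' : Adm A w') {T : Finset ι} (hw : ∀ a, a ∉ T → w' a = w a)
    (hT : ∀ a ∈ T, 0 < gam w a) : mask Tᶜ Tᶜ (Km A w') = mask Tᶜ Tᶜ (Km A w)
      + relD (Km A w) T (Tk A w w') := K_close h h' hw hT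

/-- closed sites carry no row -/
theorem mask_Km {T : Finset ι} (h : ∀ a ∈ T, gam w a = 0) : mask Tᶜ Tᶜ (Km A w) = Km A w := by
  ext a b
  rw [mask_apply]
  split_ifs with hab
  · rfl
  · simp only [mem_compl, not_and_or, not_not] at hab
    rcases hab with e | e <;> simp [Km, h _ e]

/-! ### perturbation of a block -/

theorem Bd.of_fix {X Y E : Matrix ι ι ℂ} {Λ e : ℝ} (hY : Bd Y Λ) (hE : Bd E e) (h0 : 0 ≤ Λ)
    (he : 0 ≤ e) (hs : Λ * e ≤ 1 / 2) (h : X = Y * (1 - E * X)) : Bd X (2 * Λ) :=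
  bd_of_sqrt fun x => by
    have h1 : X *ᵥ x = Y *ᵥ x + -((Y * E) *ᵥ (X *ᵥ x)) := by
      conv_lhs => rw [h]
      rw [mul_sub, mul_one, sub_mulVec, mulVec_mulVec, mul_assoc, sub_eq_add_neg]
    have h2 := sqrt_nsq_add_le (Y *ᵥ x) (-((Y * E) *ᵥ (X *ᵥ x)))
    rw [← h1, nsq_neg] at h2
    have h3 := hY.sqrt h0 x
    have h4 := (hY.mul hE).sqrt (mul_nonneg h0 he) (X *ᵥ x)
    have h5 := mul_le_mul_of_nonneg_right hs (Real.sqrt_nonneg (nsq (X *ᵥ x)))
    linarith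

theorem Bd.eq_zero_of_fix {Y : Matrix ι ι ℂ} {c : ℝ} (hY : Bd Y c) (h0 : 0 ≤ c) (hs : c ≤ 1 / 2)
    {y : ι → ℂ} (h : y = -(Y *ᵥ y)) : y = 0 := by
  have h1 := hY y
  rw [← nsq_neg, ← h] at h1
  have h2 := nsq_nonneg y
  exact nsq_eq_zero (by nlinarith [mul_le_mul hs hs h0 (by norm_num)])

/-- a small change on `T` keeps the system invertible -/
theorem Adm.pert (h : Adm A w) {T : Finset ι} (hw : ∀ a, a ∉ T → w' a = w a) {u g : ℝ}
    (hu0 : 0 ≤ u) (hg0 : 0 ≤ g) (hu : ∀ a ∈ T, ‖w' a - w a‖ ≤ u)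
    (hg : Bd (mask T T (Gm A w)) g) (hs : g * u ≤ 1 / 2) (hd : ∀ a, 0 ≤ gam w' a) :
    Adm A w' ∧ Bd (mask T T (Gm A w')) (2 * g) := by
  have hD : Bd (Dm w w') u := bd_diagonal fun a => by
    by_cases ha : a ∈ T
    · exact hu a ha
    · simpa [hw a ha] using hu0
  have h' : Adm A w' := ⟨h.symm, h.herm, hd, isUnit_det_of_inj fun x hx => by
    have e : x = -(Gm A w * Dm w w') *ᵥ x := by
      have := congrArg (Gm A w *ᵥ ·) hx
      simp only [mulVec_mulVec, mulVec_zero] at this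
      rw [Hm_eq A w w', mul_add, h.GH, add_mulVec, one_mulVec] at this
      rw [neg_mulVec]
      exact eq_neg_of_add_eq_zero_left this
    have e2 : Pm T *ᵥ x = 0 := (hg.mul hD).eq_zero_of_fix (mul_nonneg hg0 hu0) hs (by
      conv_lhs => rw [e]
      rw [mulVec_mulVec, mulVec_mulVec, mask_eq, mul_assoc _ (Pm T), Pm_mul_Dm hw, mul_assoc,
        Dm_mul_Pm hw, mul_neg, neg_mulVec, mul_assoc])
    rw [e, ← Dm_mul_Pm hw, ← mul_assoc, neg_mulVec, ← mulVec_mulVec, e2, mulVec_zero, neg_zero]⟩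
  refine ⟨h', hg.of_fix hD hg0 hu0 hs ?_⟩
  rw [mask_eq, mask_eq, mul_sub, mul_one, ← mul_assoc, mul_assoc _ (Pm T) (Dm w w'), Pm_mul_Dm hw,
    ← mul_assoc, ← mul_assoc, mul_assoc _ (Dm w w') (Pm T), Dm_mul_Pm hw, ← sub_mul,
    mul_assoc (Pm T) (Gm A w), mul_assoc (Pm T) (_ * _), ← mul_sub, ← res1 h h']

/-- damping `T` keeps the system invertible -/
theorem Adm.damp (h : Adm A w) {T : Finset ι} (hw : ∀ a, a ∉ T → w' a = w a)
    (hT : ∀ a ∈ T, 0 < gam w' a) : Adm A w' := by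
  have hd : ∀ a, 0 ≤ gam w' a := fun a => by
    by_cases ha : a ∈ T
    · exact (hT a ha).le
    · rw [gam, hw a ha]; exact h.diss a
  refine ⟨h.symm, h.herm, hd, isUnit_det_of_inj fun x hx => ?_⟩
  have h1 := im_form h.herm w' x
  rw [hx, dotProduct_zero, Complex.zero_im, eq_comm, neg_eq_zero,
    sum_eq_zero_iff_of_nonneg fun a _ => mul_nonneg (hd a) (by positivity)] at h1
  have h2 : Dm w w' *ᵥ x = 0 := funext fun a => by
    rw [Dm, mulVec_diagonal]
    by_cases ha : a ∈ T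
    · have := (mul_eq_zero.1 (h1 a (mem_univ a))).resolve_left (hT a ha).ne'
      simp [norm_eq_zero.1 (pow_eq_zero_iff two_ne_zero |>.1 this)]
    · simp [hw a ha]
  rw [Hm_eq A w w', add_mulVec, h2, add_zero] at hx
  rw [← one_mulVec x, ← h.GH, ← mulVec_mulVec, hx, mulVec_zero]

end Crest.Agent.N334.AC
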