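import Mathlib

/-!
# Row 334, S0520 (helper74): finite matrices, squared norms, Gram determinants
-/

set_option autoImplicit false

open Matrix Finset
open scoped ComplexConjugate

namespace Crest.Agent.N334.AC

variable {ι κ ι' : Type*} [Fintype ι] [Fintype κ] [Fintype ι']

/-- squared `ℓ²` norm -/
noncomputable def nsq (x : ι → ℂ) : ℝ := ∑ i, ‖x i‖ ^ 2

/-- operator norm bound `‖A‖ ≤ C` -/
def Bd (A : Matrix κ ι ℂ) (C : ℝ) : Prop := ∀ x, nsq (A *ᵥ x) ≤ C ^ 2 * nsq x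

theorem nsq_nonneg (x : ι → ℂ) : 0 ≤ nsq x := Finset.sum_nonneg fun _ _ => by positivity

theorem sq_le_nsq (x : ι → ℂ) (i : ι) : ‖x i‖ ^ 2 ≤ nsq x :=
  Finset.single_le_sum (f := fun i => ‖x i‖ ^ 2) (fun _ _ => by positivity) (Finset.mem_univ i)

theorem nsq_eq_zero {x : ι → ℂ} (h : nsq x = 0) : x = 0 := by
  funext i
  have := sq_le_nsq x i
  rw [h] at this
  have h2 : ‖x i‖ = 0 := by nlinarith [norm_nonneg (x i)]
  simpa using h2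

@[simp] theorem nsq_zero : nsq (0 : ι → ℂ) = 0 := by simp [nsq]

theorem nsq_star (x : ι → ℂ) : nsq (star x) = nsq x := by simp [nsq]

theorem nsq_smul (c : ℂ) (x : ι → ℂ) : nsq (c • x) = ‖c‖ ^ 2 * nsq x := by
  simp [nsq, mul_pow, Finset.mul_sum]

theorem nsq_neg (x : ι → ℂ) : nsq (-x) = nsq x := by simp [nsq]

theorem nsq_single [DecidableEq ι] (a : ι) (c : ℂ) : nsq (Pi.single a c : ι → ℂ) = ‖c‖ ^ 2 := by
  unfold nsq
  rw [Finset.sum_eq_single a]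
  · simp
  · intro b _ hb; simp [hb]
  · simp

theorem nsq_eq_norm (x : ι → ℂ) : nsq x = ‖(WithLp.toLp 2 x : EuclideanSpace ℂ ι)‖ ^ 2 := by
  rw [EuclideanSpace.norm_sq_eq]; rfl

theorem dot_self (u : ι → ℂ) : star u ⬝ᵥ u = (nsq u : ℂ) := by
  simp [nsq, dotProduct, Complex.conj_mul']

/-- Cauchy–Schwarz, bilinear -/
theorem cs' (u v : ι → ℂ) : ‖u ⬝ᵥ v‖ ^ 2 ≤ nsq u * nsq v := by
  have h1 : ‖u ⬝ᵥ v‖ ≤ ∑ i, ‖u i‖ * ‖v i‖ := by
    unfold dotProduct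
    exact (norm_sum_le _ _).trans (by simp)
  calc ‖u ⬝ᵥ v‖ ^ 2 ≤ (∑ i, ‖u i‖ * ‖v i‖) ^ 2 := by gcongr
    _ ≤ _ := Finset.sum_mul_sq_le_sq_mul_sq _ _ _

/-- Cauchy–Schwarz, sesquilinear -/
theorem cs (u v : ι → ℂ) : ‖star u ⬝ᵥ v‖ ^ 2 ≤ nsq u * nsq v := by
  simpa [nsq_star] using cs' (star u) v

theorem nsq_add_le (x y : ι → ℂ) : nsq (x + y) ≤ 2 * nsq x + 2 * nsq y := by
  simp only [nsq, Finset.mul_sum, ← Finset.sum_add_distrib, Pi.add_apply]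
  refine Finset.sum_le_sum fun i _ => ?_
  have := norm_add_le (x i) (y i)
  nlinarith [norm_nonneg (x i + y i), norm_nonneg (x i), norm_nonneg (y i),
    sq_nonneg (‖x i‖ - ‖y i‖)]

theorem sqrt_nsq_add_le (x y : ι → ℂ) : √(nsq (x + y)) ≤ √(nsq x) + √(nsq y) := by
  simp only [nsq_eq_norm, Real.sqrt_sq (norm_nonneg _)]
  rw [WithLp.toLp_add]
  exact norm_add_le _ _

theorem Bd.mono {A : Matrix κ ι ℂ} {C C' : ℝ} (h : Bd A C) (h0 : 0 ≤ C) (hC : C ≤ C') :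
    Bd A C' := fun x => (h x).trans (by have := nsq_nonneg x; gcongr)

theorem Bd.mul {A : Matrix κ ι ℂ} {B : Matrix ι ι' ℂ} {C C' : ℝ} (h : Bd A C) (h' : Bd B C') :
    Bd (A * B) (C * C') := fun x => by
  rw [← mulVec_mulVec]
  calc _ ≤ C ^ 2 * nsq (B *ᵥ x) := h _
    _ ≤ C ^ 2 * (C' ^ 2 * nsq x) := by gcongr; exact h' x
    _ = _ := by ring

theorem Bd.sqrt {A : Matrix κ ι ℂ} {C : ℝ} (h : Bd A C) (h0 : 0 ≤ C) (x : ι → ℂ) :
    √(nsq (A *ᵥ x)) ≤ C * √(nsq x) := by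
  calc _ ≤ √(C ^ 2 * nsq x) := Real.sqrt_le_sqrt (h x)
    _ = _ := by rw [Real.sqrt_mul (by positivity), Real.sqrt_sq h0]

theorem bd_of_sqrt {A : Matrix κ ι ℂ} {C : ℝ} (h : ∀ x, √(nsq (A *ᵥ x)) ≤ C * √(nsq x)) :
    Bd A C := fun x => by
  have h1 := h x
  have h2 := Real.sq_sqrt (nsq_nonneg (A *ᵥ x))
  have h3 := Real.sq_sqrt (nsq_nonneg x)
  calc _ = √(nsq (A *ᵥ x)) ^ 2 := h2.symm
    _ ≤ (C * √(nsq x)) ^ 2 := by gcongr
    _ = _ := by rw [mul_pow, h3]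

theorem Bd.add {A B : Matrix κ ι ℂ} {C C' : ℝ} (h : Bd A C) (h' : Bd B C') (h0 : 0 ≤ C)
    (h0' : 0 ≤ C') : Bd (A + B) (C + C') := bd_of_sqrt fun x => by
  rw [add_mulVec]
  have := h.sqrt h0 x
  have := h'.sqrt h0' x
  have := sqrt_nsq_add_le (A *ᵥ x) (B *ᵥ x)
  linarith

theorem Bd.smul {A : Matrix κ ι ℂ} {C : ℝ} (h : Bd A C) (c : ℂ) : Bd (c • A) (‖c‖ * C) := fun x => by
  rw [smul_mulVec, nsq_smul, mul_pow, mul_assoc]
  gcongr
  exact h x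

theorem Bd.neg {A : Matrix κ ι ℂ} {C : ℝ} (h : Bd A C) : Bd (-A) C := fun x => by
  rw [neg_mulVec, nsq_neg]; exact h x

theorem Bd.sub {A B : Matrix κ ι ℂ} {C C' : ℝ} (h : Bd A C) (h' : Bd B C') (h0 : 0 ≤ C)
    (h0' : 0 ≤ C') : Bd (A - B) (C + C') := by
  rw [sub_eq_add_neg]; exact h.add h'.neg h0 h0'

theorem bd_one [DecidableEq ι] : Bd (1 : Matrix ι ι ℂ) 1 := fun x => by simp

theorem bd_diagonal [DecidableEq ι] {d : ι → ℂ} {C : ℝ} (h : ∀ i, ‖d i‖ ≤ C) :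
    Bd (diagonal d) C := fun x => by
  simp only [nsq, mulVec_diagonal, Finset.mul_sum, norm_mul, mul_pow]
  exact Finset.sum_le_sum fun i _ => by gcongr; exact h i

/-- bilinear form bound -/
theorem Bd.dot {A : Matrix κ ι ℂ} {C : ℝ} (h : Bd A C) (u : κ → ℂ) (x : ι → ℂ) :
    ‖u ⬝ᵥ A *ᵥ x‖ ^ 2 ≤ C ^ 2 * (nsq u * nsq x) := by
  calc _ ≤ nsq u * nsq (A *ᵥ x) := cs' _ _
    _ ≤ nsq u * (C ^ 2 * nsq x) := by gcongr; exacts [nsq_nonneg _, h x]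
    _ = _ := by ring

theorem Bd.transpose {A : Matrix κ ι ℂ} {C : ℝ} (h : Bd A C) : Bd Aᵀ C := fun u => by
  have h1 := h.dot u (star (Aᵀ *ᵥ u))
  have h2 : u ⬝ᵥ A *ᵥ star (Aᵀ *ᵥ u) = (nsq (Aᵀ *ᵥ u) : ℂ) := by
    rw [dotProduct_mulVec, ← mulVec_transpose, dotProduct_comm, dot_self]
  rw [h2, nsq_star, Complex.norm_real, Real.norm_of_nonneg (nsq_nonneg _)] at h1
  rcases (nsq_nonneg (Aᵀ *ᵥ u)).eq_or_lt with h0 | h0
  · rw [← h0]; have := nsq_nonneg u; positivity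
  · nlinarith

theorem Bd.conj {A : Matrix κ ι ℂ} {C : ℝ} (h : Bd A C) : Bd (A.map star) C := fun x => by
  have : A.map star *ᵥ x = star (A *ᵥ star x) := by
    funext k; simp [mulVec, dotProduct]
  rw [this, nsq_star]
  simpa [nsq_star] using h (star x)

theorem Bd.conjTranspose {A : Matrix κ ι ℂ} {C : ℝ} (h : Bd A C) : Bd Aᴴ C := h.transpose.conj

theorem Bd.col [DecidableEq ι] {A : Matrix κ ι ℂ} {C : ℝ} (h : Bd A C) (b : ι) :
    ∑ a, ‖A a b‖ ^ 2 ≤ C ^ 2 := by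
  have := h (Pi.single b 1)
  rw [nsq_single] at this
  simpa [nsq] using this

theorem Bd.row [DecidableEq κ] {A : Matrix κ ι ℂ} {C : ℝ} (h : Bd A C) (a : κ) :
    ∑ b, ‖A a b‖ ^ 2 ≤ C ^ 2 := h.transpose.col a

theorem Bd.entry [DecidableEq ι] {A : Matrix κ ι ℂ} {C : ℝ} (h : Bd A C) (h0 : 0 ≤ C) (a : κ)
    (b : ι) : ‖A a b‖ ≤ C := by
  have h1 : ‖A a b‖ ^ 2 ≤ C ^ 2 :=
    (Finset.single_le_sum (f := fun a => ‖A a b‖ ^ 2) (fun _ _ => by positivity)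
      (Finset.mem_univ a)).trans (h.col b)
  exact abs_le_of_sq_le_sq' h1 h0 |>.2

/-- Hilbert–Schmidt bound -/
theorem bd_hs (A : Matrix κ ι ℂ) {C : ℝ} (h : ∑ a, ∑ b, ‖A a b‖ ^ 2 ≤ C ^ 2) : Bd A C := fun x => by
  calc nsq (A *ᵥ x) ≤ ∑ a, (∑ b, ‖A a b‖ ^ 2) * nsq x :=
        Finset.sum_le_sum fun a _ => cs' (A a) x
    _ = (∑ a, ∑ b, ‖A a b‖ ^ 2) * nsq x := by rw [Finset.sum_mul]
    _ ≤ _ := by gcongr; exact nsq_nonneg x

/-- Schur test -/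
theorem bd_schur (A : Matrix κ ι ℂ) {R C : ℝ} (hR0 : 0 ≤ R) (hC0 : 0 ≤ C)
    (hR : ∀ a, ∑ b, ‖A a b‖ ≤ R) (hC : ∀ b, ∑ a, ‖A a b‖ ≤ C) : Bd A √(R * C) := fun x => by
  rw [Real.sq_sqrt (by positivity)]
  have h1 : ∀ a, ‖(A *ᵥ x) a‖ ^ 2 ≤ R * ∑ b, ‖A a b‖ * ‖x b‖ ^ 2 := by
    intro a
    have h2 : ‖(A *ᵥ x) a‖ ≤ ∑ b, √‖A a b‖ * (√‖A a b‖ * ‖x b‖) := by
      unfold mulVec dotProduct
      refine (norm_sum_le _ _).trans (le_of_eq (Finset.sum_congr rfl fun b _ => ?_))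
      rw [← mul_assoc, Real.mul_self_sqrt (norm_nonneg _), norm_mul]
    calc _ ≤ (∑ b, √‖A a b‖ * (√‖A a b‖ * ‖x b‖)) ^ 2 := by gcongr
      _ ≤ (∑ b, √‖A a b‖ ^ 2) * ∑ b, (√‖A a b‖ * ‖x b‖) ^ 2 :=
        Finset.sum_mul_sq_le_sq_mul_sq _ _ _
      _ = (∑ b, ‖A a b‖) * ∑ b, ‖A a b‖ * ‖x b‖ ^ 2 := by
        simp only [mul_pow, Real.sq_sqrt (norm_nonneg _)]
      _ ≤ _ := by gcongr; exact hR a
  calc nsq (A *ᵥ x) ≤ ∑ a, R * ∑ b, ‖A a b‖ * ‖x b‖ ^ 2 := Finset.sum_le_sum fun a _ => h1 a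
    _ = R * ∑ b, (∑ a, ‖A a b‖) * ‖x b‖ ^ 2 := by
        rw [← Finset.mul_sum, Finset.sum_comm]; simp only [Finset.sum_mul]
    _ ≤ R * ∑ b, C * ‖x b‖ ^ 2 := by gcongr with b; exact hC b
    _ = _ := by rw [← Finset.mul_sum, nsq]; ring

open scoped Matrix.Norms.L2Operator in
theorem bd_iff_norm [DecidableEq ι] [DecidableEq κ] {A : Matrix κ ι ℂ} {C : ℝ} (h0 : 0 ≤ C) :
    Bd A C ↔ ‖A‖ ≤ C := by
  constructor
  · intro h
    rw [Matrix.l2_opNorm_def]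
    refine ContinuousLinearMap.opNorm_le_bound _ h0 fun x => ?_
    have := h.sqrt h0 x.ofLp
    rw [nsq_eq_norm, nsq_eq_norm, Real.sqrt_sq (norm_nonneg _), Real.sqrt_sq (norm_nonneg _)] at this
    exact this
  · intro h x
    have := Matrix.l2_opNorm_mulVec A (WithLp.toLp 2 x)
    rw [nsq_eq_norm, nsq_eq_norm, ← mul_pow]
    have h2 : ‖(WithLp.toLp 2 (A *ᵥ x) : EuclideanSpace ℂ κ)‖ ≤
        C * ‖(WithLp.toLp 2 x : EuclideanSpace ℂ ι)‖ :=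
      le_trans this (by gcongr)
    gcongr

/-! ## Gram matrices -/

theorem gram_form (V : Matrix κ ι ℂ) (x y : ι → ℂ) :
    star x ⬝ᵥ (Vᴴ * V) *ᵥ y = star (V *ᵥ x) ⬝ᵥ V *ᵥ y := by
  rw [← mulVec_mulVec, dotProduct_mulVec, star_mulVec]

theorem gram_form' (V : Matrix κ ι ℂ) (x y : ι → ℂ) :
    star ((Vᴴ * V) *ᵥ x) ⬝ᵥ y = star (V *ᵥ x) ⬝ᵥ V *ᵥ y := by
  rw [star_mulVec, ← dotProduct_mulVec, conjTranspose_mul, conjTranspose_conjTranspose, gram_form]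

variable [DecidableEq ι]

theorem gram_det_ne (V : Matrix κ ι ℂ) (h : ∀ x, V *ᵥ x = 0 → x = 0) : (Vᴴ * V).det ≠ 0 := by
  intro h0
  obtain ⟨x, hx, h1⟩ := Matrix.exists_mulVec_eq_zero_iff.2 h0
  apply hx
  apply h
  apply nsq_eq_zero
  have := gram_form V x x
  rw [h1, dot_self] at this
  simpa using this.symm

theorem exists_solve {M : Matrix ι ι ℂ} (h : M.det ≠ 0) (v : ι → ℂ) : ∃ x, M *ᵥ x = v :=
  ⟨M⁻¹ *ᵥ v, by rw [mulVec_mulVec, mul_nonsing_inv _ (isUnit_iff_ne_zero.2 h), one_mulVec]⟩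

/-- removing one row of `V` multiplies the Gram determinant by `1 - leverage` -/
theorem gram_row [DecidableEq κ] (V : Matrix κ ι ℂ) (h : ∀ x, V *ᵥ x = 0 → x = 0) (k : κ) :
    ∃ x : ι → ℂ, ((V.updateRow k 0)ᴴ * V.updateRow k 0).det =
        (Vᴴ * V).det * (1 - (nsq (V *ᵥ x) : ℂ)) ∧
      nsq (V.updateRow k 0 *ᵥ x) = nsq (V *ᵥ x) - nsq (V *ᵥ x) ^ 2 ∧
      ∀ y, ‖(V *ᵥ y) k‖ ^ 2 ≤ nsq (V *ᵥ x) * nsq (V *ᵥ y) := by
  have hd := gram_det_ne V h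
  obtain ⟨x, hx⟩ := exists_solve hd (star (V k))
  have hy : ∀ y, (V *ᵥ y) k = star (V *ᵥ x) ⬝ᵥ V *ᵥ y := by
    intro y
    rw [← gram_form', hx, star_star]; rfl
  have hxx : (V *ᵥ x) k = (nsq (V *ᵥ x) : ℂ) := by rw [hy, dot_self]
  refine ⟨x, ?_, ?_, fun y => ?_⟩
  · have h1 : (V.updateRow k 0)ᴴ * V.updateRow k 0 =
        (Vᴴ * V) * (1 + replicateCol Unit (-x) * replicateRow Unit (V k)) := by
      rw [Matrix.mul_add, Matrix.mul_one, ← Matrix.mul_assoc]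
      have : Vᴴ * V * replicateCol Unit (-x) = replicateCol Unit (-star (V k)) := by
        rw [← replicateCol_mulVec, mulVec_neg, hx]
      rw [this]
      ext i j
      simp only [Matrix.mul_apply, conjTranspose_apply, Matrix.add_apply, replicateCol_apply,
        replicateRow_apply, Finset.univ_unique, Finset.sum_singleton, Pi.neg_apply, Pi.star_apply]
      rw [← Finset.add_sum_erase _ _ (Finset.mem_univ k),
        ← Finset.add_sum_erase _ (fun a => star (V a i) * V a j) (Finset.mem_univ k)]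
      rw [Finset.sum_congr rfl (g := fun a => star (V a i) * V a j) fun a ha => by
        rw [updateRow_ne (Finset.ne_of_mem_erase ha)]]
      simp
      ring
    rw [h1, det_mul, det_one_add_replicateCol_mul_replicateRow, dotProduct_neg, ← hxx]
    rfl
  · have h1 : nsq (V.updateRow k 0 *ᵥ x) + ‖(V *ᵥ x) k‖ ^ 2 = nsq (V *ᵥ x) := by
      unfold nsq
      rw [← Finset.add_sum_erase _ _ (Finset.mem_univ k),
        ← Finset.add_sum_erase _ (fun a => ‖(V *ᵥ x) a‖ ^ 2) (Finset.mem_univ k)]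
      rw [Finset.sum_congr rfl (g := fun a => ‖(V *ᵥ x) a‖ ^ 2) fun a ha => by
        simp only [mulVec, updateRow_ne (Finset.ne_of_mem_erase ha)]]
      simp [mulVec, add_comm]
    rw [hxx, Complex.norm_real, Real.norm_of_nonneg (nsq_nonneg _)] at h1
    linarith
  · rw [hy]; exact cs _ _

theorem det_clear (N : Matrix ι ι ℂ) (a : ι) :
    ((N.updateRow a (Pi.single a 1)).updateCol a (Pi.single a 1)).det = adjugate N a a := by
  rw [← cramer_apply, cramer_eq_adjugate_mulVec, mulVec_single_one, Matrix.col_apply,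
    adjugate_apply, adjugate_apply, updateRow_idem]

/-- replacing row and column `a` of a Gram matrix by the unit vector -/
theorem gram_col (V : Matrix κ ι ℂ) (h : ∀ x, V *ᵥ x = 0 → x = 0) (a : ι) :
    ∃ r : ℝ, 0 < r ∧
      (((Vᴴ * V).updateRow a (Pi.single a 1)).updateCol a (Pi.single a 1)).det =
        (Vᴴ * V).det * r ∧
      1 ≤ r * ∑ k, ‖V k a‖ ^ 2 ∧
      ∀ lam : ℝ, (∀ x, lam * ‖x a‖ ^ 2 ≤ nsq (V *ᵥ x)) → lam * r ≤ 1 := by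
  have hd := gram_det_ne V h
  obtain ⟨y, hy⟩ := exists_solve hd (Pi.single a 1)
  have hz : ∀ z, z a = star (V *ᵥ y) ⬝ᵥ V *ᵥ z := by
    intro z
    rw [← gram_form', hy]
    simp [dotProduct, Pi.single_apply, apply_ite]
  have hyy : y a = (nsq (V *ᵥ y) : ℂ) := by rw [hz y, dot_self]
  have h1 : 1 ≤ nsq (V *ᵥ y) * ∑ k, ‖V k a‖ ^ 2 := by
    have := cs (V *ᵥ y) (V *ᵥ Pi.single a 1)
    rw [← hz] at this
    simpa [nsq] using this
  have hpos : 0 < nsq (V *ᵥ y) := by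
    rcases (nsq_nonneg (V *ᵥ y)).eq_or_lt with h0 | h0
    · rw [← h0] at h1; norm_num at h1
    · exact h0
  refine ⟨nsq (V *ᵥ y), hpos, ?_, h1, fun lam hl => ?_⟩
  · rw [det_clear, ← hyy]
    have : adjugate (Vᴴ * V) *ᵥ ((Vᴴ * V) *ᵥ y) = (Vᴴ * V).det • y := by
      rw [mulVec_mulVec, adjugate_mul, smul_mulVec, one_mulVec]
    rw [hy, mulVec_single_one] at this
    exact congrFun this a
  · have := hl y
    rw [hyy, Complex.norm_real, Real.norm_of_nonneg hpos.le] at this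
    nlinarith

end Crest.Agent.N334.AC
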