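import Crest.Prelude.Def_AndersonOp

/-!
# Row 334, S0520 (helper27): frozen interface

Torus, absorber, Green matrix, port energy; `OutStmt` (output of the closing process),
`InitStmt` (free-lattice input), `AcStmt` (= statement of S0520).
Chain: `InitStmt → OutStmt` (parts F, L, P) and `OutStmt → AcStmt` (part E).
-/

set_option autoImplicit false

open MeasureTheory Finset
open scoped Matrix.Norms.L2Operator

namespace Crest.Agent.N334.AC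

open Crest.MathPhysics Crest.MathPhysics.Anderson

/-- the discrete torus -/
abbrev Tor (d M : ℕ) : Type := Fin d → ZMod M

section Geometry

variable {d M : ℕ} [NeZero M]

/-- sup-norm distance on the torus -/
def tdist (x y : Tor d M) : ℕ := univ.sup fun j => (x j - y j).valMinAbs.natAbs

/-- closed ball -/
def tball (p : Tor d M) (r : ℕ) : Finset (Tor d M) := univ.filter fun x => tdist x p ≤ r

/-- number of sites of a ball of radius `r` -/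
def vol (d M : ℕ) [NeZero M] (r : ℕ) : ℝ := ((tball (0 : Tor d M) r).card : ℝ)

/-- `S` is `R`-separated -/
def Sep (R : ℕ) (S : Finset (Tor d M)) : Prop := ∀ x ∈ S, ∀ y ∈ S, x ≠ y → R ≤ tdist x y

/-- the absorbing slab `|x₀| > M/4` -/
def absb (d M : ℕ) [NeZero M] : Finset (Tor d M) :=
  univ.filter fun x => ∃ j : Fin d, j.val = 0 ∧ M < 4 * (x j).valMinAbs.natAbs

/-- hopping matrix (amplitude `-1`) -/
def hop (d M : ℕ) [NeZero M] : Matrix (Tor d M) (Tor d M) ℂ := fun x y =>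
  -∑ j : Fin d, ((if y = x + Pi.single j 1 then (1 : ℂ) else 0) +
    if y = x - Pi.single j 1 then (1 : ℂ) else 0)

end Geometry

section Ports

variable {ι : Type} [Fintype ι] [DecidableEq ι]

/-- `A + diag w` (the energy is absorbed in `A`) -/
def Hm (A : Matrix ι ι ℂ) (w : ι → ℂ) : Matrix ι ι ℂ := A + Matrix.diagonal w

/-- Green matrix -/
noncomputable def Gm (A : Matrix ι ι ℂ) (w : ι → ℂ) : Matrix ι ι ℂ := (Hm A w)⁻¹

/-- absorption rate -/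
def gam (w : ι → ℂ) (x : ι) : ℝ := -(w x).im

/-- `K = γ^{1/2} G γ^{1/2}` (rows of closed sites vanish) -/
noncomputable def Km (A : Matrix ι ι ℂ) (w : ι → ℂ) : Matrix ι ι ℂ := fun a b =>
  (Real.sqrt (gam w a) : ℂ) * Gm A w a b * (Real.sqrt (gam w b) : ℂ)

/-- port energy `½ ∑ |K_{ab}|² (f_a - f_b)²` -/
noncomputable def En (K : Matrix ι ι ℂ) (f : ι → ℝ) : ℝ :=
  (1 / 2) * ∑ a, ∑ b, ‖K a b‖ ^ 2 * (f a - f b) ^ 2

/-- admissible data: `A` real symmetric, `w` dissipative, `A + diag w` invertible -/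
structure Adm (A : Matrix ι ι ℂ) (w : ι → ℂ) : Prop where
  symm : A.IsSymm
  herm : A.IsHermitian
  diss : ∀ x, 0 ≤ gam w x
  inv : IsUnit (Hm A w).det

end Ports

section Model

variable {d M : ℕ} [NeZero M]

/-- `hop - E` -/
noncomputable def Aop (d M : ℕ) [NeZero M] (E : ℝ) : Matrix (Tor d M) (Tor d M) ℂ :=
  hop d M - (E : ℂ) • (1 : Matrix (Tor d M) (Tor d M) ℂ)

/-- the potential with digit `k ∈ range N` and remainder `r ∈ [0,1]` -/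
noncomputable def val (σ : ℝ) (N : ℕ) (r : ℝ) (k : ℕ) : ℝ := σ * (2 * (((k : ℝ) + r) / N) - 1)

/-- true potential `v` in the core, `w₀` on the absorber, `wx` at the observer `x` -/
noncomputable def wObs (v : Tor d M → ℝ) (w0 : ℂ) (x : Tor d M) (wx : ℂ) : Tor d M → ℂ := fun z =>
  if z ∈ absb d M then w0 else if z = x then wx else (v z : ℂ)

/-- the good event: an observer near the origin conducts to the absorber -/
def Good (E : ℝ) (w0 : ℂ) (κ : ℝ) (R : ℕ) (v : Tor d M → ℝ) : Prop :=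
  ∃ x ∈ tball (0 : Tor d M) R, x ∉ absb d M ∧ ∃ wx : ℂ, ‖wx‖ ≤ 1 ∧ κ ≤ -wx.im ∧
    IsUnit (Hm (Aop d M E) (wObs v w0 x wx)).det ∧
    κ ≤ ∑ b ∈ absb d M, ‖Km (Aop d M E) (wObs v w0 x wx) x b‖ ^ 2

open Classical in
/-- fraction of digit fields in the cells `S` on which `Good` fails -/
noncomputable def badFrac (σ E : ℝ) (w0 : ℂ) (κ : ℝ) (R N : ℕ) (r : Tor d M → ℝ)
    (S : Tor d M → Finset ℕ) : ℝ :=
  (∑ ω ∈ Fintype.piFinset S,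
      if Good E w0 κ R (fun x => val σ N (r x) (ω x)) then (0 : ℝ) else 1) /
    ∏ x, ((S x).card : ℝ)

end Model

/-- energies used: `E + 2d ∈ [1/400, 1/100]` -/
def InWin (d : ℕ) (E : ℝ) : Prop := -2 * (d : ℝ) + 1 / 400 ≤ E ∧ E ≤ -2 * (d : ℝ) + 1 / 100

/-- OUTPUT of the closing process. -/
def OutStmt : Prop :=
  ∀ d : ℕ, 3 ≤ d → ∃ c₀ > (0 : ℝ), ∀ σ : ℝ, 0 < σ → σ < c₀ → ∃ κ > (0 : ℝ),
    ∀ ε > (0 : ℝ), ∃ R : ℕ, ∀ E₀ : ℝ, InWin d E₀ → ∀ M₀ : ℕ, ∃ (M : ℕ) (_ : NeZero M), M₀ ≤ M ∧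
      ∃ w0 : ℂ, ‖w0‖ ≤ 1 ∧ κ ≤ -w0.im ∧ ∃ N : ℕ, 0 < N ∧
        ∀ E : ℝ, InWin d E → |E - E₀| ≤ σ ^ 2 →
          ∀ r : Tor d M → ℝ, (∀ x, 0 ≤ r x ∧ r x ≤ 1) →
            badFrac σ E w0 κ R N r (fun _ => range N) ≤ ε

/-- the statement of S0520 -/
def AcStmt : Prop :=
    ∃ e : ℝ, 0 < e ∧ e < 1 / 100 ∧ ∀ d : ℕ, 3 ≤ d → ∃ c₀ : ℝ, 0 < c₀ ∧
      ∀ c : ℝ, 0 < c → c < c₀ →
        ∀ᵐ ω ∂(siteMeasure (Fin d → ℤ)),
          (∀ E ∈ energyWindow e d,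
            (E : ℂ) ∈ spectrum ℂ (latticeOp d (-1) (c • centredPotentialBdd ω))) ∧
          ∀ ψ : Ell2 d, ∃ g : ℝ → ℝ, IntegrableOn g (energyWindow e d) ∧
            ∀ f : ℝ → ℝ, Continuous f → Function.support f ⊆ energyWindow e d →
              inner ℂ ψ (cfc (fun z : ℂ => ((f z.re : ℝ) : ℂ))
                (latticeOp d (-1) (c • centredPotentialBdd ω)) ψ) =
                ((∫ E in energyWindow e d, f E * g E : ℝ) : ℂ)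

/-- part E -/
def EndStmt : Prop := OutStmt → AcStmt

section Init

variable {d M : ℕ} [NeZero M]

/-- functions vanishing on the absorber -/
def Van (ψ : Tor d M → ℝ) : Prop := ∀ x ∈ absb d M, ψ x = 0

/-- Sliding cut-offs at scale `L` for the free energy `E0`: `χ p` is a cut-off around `p`,
`cp p` a local centring functional. -/
structure Cut (E0 : (Tor d M → ℝ) → ℝ) (σ C : ℝ) (L : ℕ) (χ : Tor d M → Tor d M → ℝ)
    (cp : Tor d M → (Tor d M → ℝ) →ₗ[ℝ] ℝ) : Prop where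
  nonneg : ∀ p x, 0 ≤ χ p x
  le_one : ∀ p x, χ p x ≤ 1
  one : ∀ p x, tdist x p ≤ 2 * L → χ p x = 1
  zero : ∀ p x, 3 * L < tdist x p → χ p x = 0
  van : ∀ p ψ, Van ψ → (∃ x ∈ absb d M, tdist x p ≤ 3 * L) → cp p ψ = 0
  ims : ∀ ψ, (∑ p, E0 fun x => χ p x * (ψ x - cp p ψ)) ≤ C * vol d M L * E0 ψ
  err : ∀ θ : ℝ, 0 < θ → θ ≤ 1 → ∀ ψ,
    (∑ p, ∑ y ∈ tball p L, ∑ b, Real.exp (-θ * tdist b y) * (ψ b - cp p ψ) ^ 2) ≤
      (C * L / θ) ^ (d + 3) / σ ^ 2 * vol d M L * E0 ψ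

/-- Free-lattice input. `G0` = Green matrix with `w₀` on every site, `E0` its port energy,
`μ0 = γ₀ Im G0(0,0)`. -/
structure Init (d M : ℕ) [NeZero M] (C σ E : ℝ) (w0 : ℂ) : Prop where
  adm : Adm (Aop d M E) fun _ => w0
  transl : ∀ x y : Tor d M, Gm (Aop d M E) (fun _ => w0) x y = Gm (Aop d M E) (fun _ => w0) (x - y) 0
  gam_lo : σ ^ 2 / C ≤ -w0.im
  w_le : ‖w0‖ ≤ C * σ ^ 2
  sup : ∀ x y : Tor d M, ‖Gm (Aop d M E) (fun _ => w0) x y‖ ≤ C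
  im_lo : 1 / C ≤ (Gm (Aop d M E) (fun _ => w0) (0 : Tor d M) 0).im
  bias : ‖w0 + (σ ^ 2 / 3 : ℝ) * Gm (Aop d M E) (fun _ => w0) (0 : Tor d M) 0‖ ≤ C * σ ^ 3
  four : ∑ x : Tor d M, ‖Gm (Aop d M E) (fun _ => w0) x 0‖ ^ 4 ≤ C / σ
  rr : ‖Matrix.hadamard (Gm (Aop d M E) fun _ => w0) (Gm (Aop d M E) fun _ => w0)‖ ≤ C / σ
  decay : ∀ x y : Tor d M, ‖Gm (Aop d M E) (fun _ => w0) x y‖ ≤
    C / σ ^ 2 * Real.exp (-(σ ^ 2 / C) * tdist x y)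
  cap1 : ∀ ε : ℝ, 0 < ε → ε ≤ 1 → ∀ l ψ : Tor d M → ℝ, Van ψ →
    (-w0.im * (Gm (Aop d M E) (fun _ => w0) (0 : Tor d M) 0).im) * (∑ x, l x * ψ x) ^ 2 ≤
      ((1 + ε) * ∑ x, l x ^ 2 + C * σ ^ 3 / ε * (∑ x, |l x|) ^ 2) *
        En (Km (Aop d M E) fun _ => w0) ψ
  cap2 : ∀ (R : ℕ) (F : ℝ), R ≤ 2 * M → 0 < F → C ≤ σ ^ 40 * R * F ^ 4 →
    ∀ (S : Finset (Tor d M)) (l ψ : Tor d M → ℝ), Sep R S → (∀ x, x ∉ S → l x = 0) → Van ψ →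
    (-w0.im * (Gm (Aop d M E) (fun _ => w0) (0 : Tor d M) 0).im) * (∑ x, l x * ψ x) ^ 2 ≤
      ((1 + C * σ ^ 2) * ∑ x, l x ^ 2 + F * (∑ x, |l x|) ^ 2) *
        En (Km (Aop d M E) fun _ => w0) ψ
  poin : ∀ (ψ : Tor d M → ℝ) (u : Tor d M), ∑ x, (ψ (x + u) - ψ x) ^ 2 ≤
    C * (1 + (σ ^ 2 * tdist u 0) ^ 2) / σ ^ 2 * En (Km (Aop d M E) fun _ => w0) ψ
  poin2 : ∀ θ : ℝ, 0 < θ → θ ≤ 1 → ∀ ψ : Tor d M → ℝ,
    ∑ a, ∑ b, Real.exp (-θ * tdist a b) * (ψ a - ψ b) ^ 2 ≤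
      (C / θ) ^ (d + 3) / σ ^ 2 * En (Km (Aop d M E) fun _ => w0) ψ
  cut : ∀ L : ℕ, 1 ≤ σ ^ 2 * L →
    ∃ χ cp, Cut (En (Km (Aop d M E) fun _ => w0)) σ C L χ cp

end Init

/-- part I -/
def InitStmt : Prop :=
  ∀ d : ℕ, 3 ≤ d → ∃ C : ℝ, 1 ≤ C ∧ ∃ c₀ > (0 : ℝ), ∀ σ : ℝ, 0 < σ → σ < c₀ → ∃ M₀ : ℕ,
    ∀ (M : ℕ) [NeZero M], M₀ ≤ M → ∀ E₀ : ℝ, InWin d E₀ → ∃ w0 : ℂ,
      ∀ E : ℝ, InWin d E → |E - E₀| ≤ σ ^ 2 → Init d M C σ E w0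

/-- parts F, L, P -/
def ProcStmt : Prop := InitStmt → OutStmt

end Crest.Agent.N334.AC
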