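import Crest.Agent.N334.AC.Mat

/-!
# Row 334, S0520 (helper74): the leverage lemma

`K` is a contraction, `B` a cluster of `n` columns, `P` the ordinary ports.  One can add at most
`m ~ 4 n log(2/ζ²)/ε` ports `Z ⊆ P` to `B` so that every other ordinary row of
`W = K[(B ∪ Z)ᶜ, B ∪ Z]` has `ζ`-regularised leverage at most `ε`.
-/

set_option autoImplicit false

open Matrix Finset
open scoped ComplexConjugate

namespace Crest.Agent.N334.AC

variable {ι : Type*} [Fintype ι] [DecidableEq ι]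

/-- the block `K[R,T]`, padded by zeros -/
def mask (R T : Finset ι) (K : Matrix ι ι ℂ) : Matrix ι ι ℂ :=
  Matrix.of fun a b => if a ∈ R ∧ b ∈ T then K a b else 0

/-- restriction of a vector to `T` -/
def cut (T : Finset ι) (x : ι → ℂ) : ι → ℂ := fun i => if i ∈ T then x i else 0

omit [Fintype ι] in
theorem mask_apply (R T : Finset ι) (K : Matrix ι ι ℂ) (a b : ι) :
    mask R T K a b = if a ∈ R ∧ b ∈ T then K a b else 0 := rfl

theorem mask_mulVec (R T : Finset ι) (K : Matrix ι ι ℂ) (x : ι → ℂ) :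
    mask R T K *ᵥ x = cut R (K *ᵥ cut T x) := by
  funext a
  by_cases ha : a ∈ R <;> simp [mask, cut, mulVec, dotProduct, ha]

theorem nsq_cut (T : Finset ι) (x : ι → ℂ) : nsq (cut T x) = ∑ i ∈ T, ‖x i‖ ^ 2 := by
  unfold nsq cut
  rw [← Finset.sum_subset (Finset.subset_univ T) (fun i _ hi => by simp [hi])]
  exact Finset.sum_congr rfl fun i hi => by simp [hi]

theorem nsq_cut_le (T : Finset ι) (x : ι → ℂ) : nsq (cut T x) ≤ nsq x := by
  rw [nsq_cut]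
  exact Finset.sum_le_sum_of_subset_of_nonneg (Finset.subset_univ T) fun _ _ _ => by positivity

theorem nsq_cut_add (T : Finset ι) (x : ι → ℂ) : nsq (cut T x) + nsq (cut Tᶜ x) = nsq x := by
  rw [nsq_cut, nsq_cut, Finset.sum_add_sum_compl]; rfl

omit [Fintype ι] in
theorem cut_cut {S T : Finset ι} (h : S ⊆ T) (x : ι → ℂ) : cut T (cut S x) = cut S x := by
  funext i
  by_cases hi : i ∈ S
  · simp [cut, hi, h hi]
  · simp [cut, hi]

theorem Bd.mask {K : Matrix ι ι ℂ} {C : ℝ} (h : Bd K C) (R T : Finset ι) : Bd (mask R T K) C :=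
  fun x => by
  rw [mask_mulVec]
  exact (nsq_cut_le _ _).trans ((h _).trans (by gcongr; exact nsq_cut_le _ _))

omit [Fintype ι] in
theorem mask_transpose (R T : Finset ι) (K : Matrix ι ι ℂ) : (mask R T K)ᵀ = mask T R Kᵀ := by
  ext a b; simp [mask, and_comm]

/-- row `a` of `K[Tᶜ,T]` has `ζ`-regularised leverage at most `ε` -/
def LevLe (K : Matrix ι ι ℂ) (ζ : ℝ) (T : Finset ι) (a : ι) (ε : ℝ) : Prop :=
  ∀ x, ‖(mask Tᶜ T K *ᵥ x) a‖ ^ 2 ≤ ε * (nsq (mask Tᶜ T K *ᵥ x) + ζ ^ 2 * nsq x)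

namespace Lev

/-- the block stacked on the regulariser -/
noncomputable def VV (K : Matrix ι ι ℂ) (ζ : ℝ) (R T : Finset ι) : Matrix (ι ⊕ ι) ι ℂ :=
  fromRows (mask R T K) (diagonal fun i => if i ∈ T then (ζ : ℂ) else 1)

/-- the potential -/
noncomputable def Phi (K : Matrix ι ι ℂ) (ζ : ℝ) (R T : Finset ι) : ℝ :=
  ‖((VV K ζ R T)ᴴ * VV K ζ R T).det‖

variable {K : Matrix ι ι ℂ} {ζ : ℝ}

theorem nsq_VV (R T : Finset ι) (x : ι → ℂ) :
    nsq (VV K ζ R T *ᵥ x) = nsq (mask R T K *ᵥ x) + ζ ^ 2 * nsq (cut T x) + nsq (cut Tᶜ x) := by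
  unfold VV
  rw [fromRows_mulVec, add_assoc]
  unfold nsq
  rw [Fintype.sum_sum_type]
  congr 1
  rw [Finset.mul_sum, ← Finset.sum_add_distrib]
  refine Finset.sum_congr rfl fun i _ => ?_
  by_cases hi : i ∈ T <;> simp [cut, hi, mulVec_diagonal, mul_pow]

theorem VV_low (h1 : ζ ^ 2 ≤ 1) (R T : Finset ι) (x : ι → ℂ) :
    ζ ^ 2 * nsq x ≤ nsq (VV K ζ R T *ᵥ x) := by
  rw [nsq_VV, ← nsq_cut_add T x]
  have := nsq_nonneg (mask R T K *ᵥ x)
  have := nsq_nonneg (cut Tᶜ x)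
  nlinarith

theorem VV_inj (h0 : 0 < ζ) (h1 : ζ ^ 2 ≤ 1) (R T : Finset ι) (x : ι → ℂ)
    (h : VV K ζ R T *ᵥ x = 0) : x = 0 := by
  have := VV_low (K := K) h1 R T x
  rw [h, nsq_zero] at this
  have h2 := nsq_nonneg x
  have h3 : 0 < ζ ^ 2 := by positivity
  exact nsq_eq_zero (by nlinarith)

omit [Fintype ι] in
theorem VV_erase (R T : Finset ι) (k : ι) :
    VV K ζ (R.erase k) T = (VV K ζ R T).updateRow (Sum.inl k) 0 := by
  ext a b
  rcases a with a | a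
  · by_cases h : a = k
    · subst h; simp [VV, mask]
    · rw [updateRow_ne (by simpa using h)]; simp [VV, mask, h]
  · rw [updateRow_ne (by simp)]; simp [VV]

theorem gram_VV (R T : Finset ι) (i j : ι) : ((VV K ζ R T)ᴴ * VV K ζ R T) i j =
    ∑ a, star (mask R T K a i) * mask R T K a j +
      if i = j then (if i ∈ T then ((ζ : ℂ) ^ 2) else 1) else 0 := by
  rw [Matrix.mul_apply, Fintype.sum_sum_type]
  congr 1
  rw [Finset.sum_eq_single i]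
  · by_cases hij : i = j
    · subst hij
      by_cases hi : i ∈ T <;> simp [VV, hi, sq]
    · simp [VV, hij]
  · intro b _ hb; simp [VV, hb]
  · simp

theorem gram_insert (R : Finset ι) {T : Finset ι} {a : ι} (ha : a ∉ T) :
    (((VV K ζ R (insert a T))ᴴ * VV K ζ R (insert a T)).updateRow a
      (Pi.single a 1)).updateCol a (Pi.single a 1) = (VV K ζ R T)ᴴ * VV K ζ R T := by
  ext i j
  rw [gram_VV]
  by_cases hj : j = a
  · subst hj
    rw [updateCol_self]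
    by_cases hi : i = j
    · subst hi; simp [mask, ha]
    · simp [mask, ha, hi]
  · rw [updateCol_ne hj]
    by_cases hi : i = a
    · subst hi
      rw [updateRow_self]
      simp [mask, ha, hj, Ne.symm hj]
    · rw [updateRow_ne hi, gram_VV]
      simp [mask, hi, hj]

theorem Phi_empty (R : Finset ι) : Phi K ζ R ∅ = 1 := by
  have : (VV K ζ R ∅)ᴴ * VV K ζ R ∅ = 1 := by
    ext i j
    rw [gram_VV]; simp [mask, one_apply]
  simp [Phi, this]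

theorem Phi_nonneg (R T : Finset ι) : 0 ≤ Phi K ζ R T := norm_nonneg _

theorem Phi_erase (h0 : 0 < ζ) (h1 : ζ ^ 2 ≤ 1) (R T : Finset ι) (k : ι) :
    ∃ x : ι → ℂ, Phi K ζ (R.erase k) T = Phi K ζ R T * (1 - nsq (VV K ζ R T *ᵥ x)) ∧
      ζ ^ 2 * nsq x ≤ nsq (VV K ζ R T *ᵥ x) - nsq (VV K ζ R T *ᵥ x) ^ 2 ∧
      ∀ y, ‖(mask R T K *ᵥ y) k‖ ^ 2 ≤ nsq (VV K ζ R T *ᵥ x) * nsq (VV K ζ R T *ᵥ y) := by
  obtain ⟨x, e1, e2, e3⟩ := gram_row (VV K ζ R T) (VV_inj h0 h1 R T) (Sum.inl k)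
  rw [← VV_erase] at e1 e2
  have hl := VV_low (K := K) h1 (R.erase k) T x
  rw [e2] at hl
  refine ⟨x, ?_, hl, fun y => ?_⟩
  · have ht := nsq_nonneg (VV K ζ R T *ᵥ x)
    have hx : 0 ≤ ζ ^ 2 * nsq x := mul_nonneg (by positivity) (nsq_nonneg x)
    have h2 : 0 ≤ 1 - nsq (VV K ζ R T *ᵥ x) := by nlinarith
    unfold Phi
    rw [e1, norm_mul]
    congr 1
    rw [← Complex.ofReal_one, ← Complex.ofReal_sub, Complex.norm_real, Real.norm_of_nonneg h2]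
  · have := e3 y
    unfold VV at this ⊢
    rwa [fromRows_mulVec, Sum.elim_inl, ← fromRows_mulVec] at this

theorem Phi_erase_le (h0 : 0 < ζ) (h1 : ζ ^ 2 ≤ 1) (T : Finset ι) (k : ι) {ε : ℝ}
    (hε : 0 ≤ ε) (h : ¬ LevLe K ζ T k ε) : Phi K ζ (Tᶜ.erase k) T ≤ (1 - ε) * Phi K ζ Tᶜ T := by
  obtain ⟨x, e1, -, e3⟩ := Phi_erase (K := K) h0 h1 Tᶜ T k
  unfold LevLe at h
  push Not at h
  obtain ⟨y, hy⟩ := h
  have h3 := e3 (cut T y)
  have h4 : mask Tᶜ T K *ᵥ cut T y = mask Tᶜ T K *ᵥ y := by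
    rw [mask_mulVec, mask_mulVec, cut_cut subset_rfl]
  have h5 : cut Tᶜ (cut T y) = 0 := by
    funext i; by_cases hi : i ∈ T <;> simp [cut, hi]
  rw [nsq_VV Tᶜ T (cut T y), h4, h5, nsq_zero, add_zero, cut_cut subset_rfl] at h3
  have h6 := nsq_cut_le T y
  have h7 : ε * (nsq (mask Tᶜ T K *ᵥ y) + ζ ^ 2 * nsq (cut T y)) ≤
      ε * (nsq (mask Tᶜ T K *ᵥ y) + ζ ^ 2 * nsq y) := by gcongr
  have h8 : 0 ≤ nsq (mask Tᶜ T K *ᵥ y) + ζ ^ 2 * nsq (cut T y) :=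
    add_nonneg (nsq_nonneg _) (mul_nonneg (by positivity) (nsq_nonneg _))
  have h9 : ε ≤ nsq (VV K ζ Tᶜ T *ᵥ x) := by
    by_contra hc
    push Not at hc
    nlinarith
  rw [e1]
  have := Phi_nonneg (K := K) (ζ := ζ) Tᶜ T
  nlinarith

theorem Phi_erase_ge (hK : Bd K 1) (h0 : 0 < ζ) (h1 : ζ ^ 2 ≤ 1) (R T : Finset ι) (k : ι) :
    ζ ^ 2 / 2 * Phi K ζ R T ≤ Phi K ζ (R.erase k) T := by
  obtain ⟨x, e1, e2, -⟩ := Phi_erase (K := K) h0 h1 R T k
  have h2 : nsq (VV K ζ R T *ᵥ x) ≤ 2 * nsq x := by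
    rw [nsq_VV]
    have := hK.mask R T x
    have := nsq_cut_add T x
    have := nsq_nonneg (cut T x)
    nlinarith
  have hp := Phi_nonneg (K := K) (ζ := ζ) R T
  have h3 : ζ ^ 2 / 2 ≤ 1 - nsq (VV K ζ R T *ᵥ x) := by
    rcases (nsq_nonneg (VV K ζ R T *ᵥ x)).eq_or_lt with h | h
    · rw [← h]; linarith
    · have : ζ ^ 2 / 2 * nsq (VV K ζ R T *ᵥ x) ≤ ζ ^ 2 * nsq x := by nlinarith [sq_nonneg ζ]
      nlinarith
  rw [e1]
  nlinarith

theorem Phi_insert (h0 : 0 < ζ) (h1 : ζ ^ 2 ≤ 1) (R : Finset ι) {T : Finset ι} {a : ι}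
    (ha : a ∉ T) :
    Phi K ζ R (insert a T) ≤ (∑ c ∈ R, ‖K c a‖ ^ 2 + ζ ^ 2) * Phi K ζ R T ∧
    ∀ lam : ℝ, (∀ x, lam * ‖x a‖ ^ 2 ≤ nsq (mask R (insert a T) K *ᵥ x) + ζ ^ 2 * ‖x a‖ ^ 2) →
      lam * Phi K ζ R T ≤ Phi K ζ R (insert a T) := by
  obtain ⟨r, hr, e1, e2, e3⟩ := gram_col (VV K ζ R (insert a T)) (VV_inj h0 h1 R _) a
  rw [gram_insert R ha] at e1
  have e4 : Phi K ζ R T = Phi K ζ R (insert a T) * r := by
    unfold Phi
    rw [e1, norm_mul, Complex.norm_real, Real.norm_of_nonneg hr.le]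
  have hp := Phi_nonneg (K := K) (ζ := ζ) R (insert a T)
  constructor
  · have h2 : ∑ k, ‖VV K ζ R (insert a T) k a‖ ^ 2 = ∑ c ∈ R, ‖K c a‖ ^ 2 + ζ ^ 2 := by
      rw [Fintype.sum_sum_type]
      congr 1
      · rw [← Finset.sum_subset (Finset.subset_univ R) (fun i _ hi => by simp [VV, mask, hi])]
        exact Finset.sum_congr rfl fun i hi => by simp [VV, mask, hi]
      · rw [Finset.sum_eq_single a]
        · simp [VV]
        · intro b _ hb; simp [VV, hb]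
        · simp
    rw [h2] at e2
    rw [e4]
    nlinarith
  · intro lam hl
    have := e3 lam fun x => (hl x).trans (by
      rw [nsq_VV]
      have h3 := sq_le_nsq (cut (insert a T) x) a
      simp only [cut, Finset.mem_insert_self, if_true] at h3
      have h4 := nsq_nonneg (cut (insert a T)ᶜ x)
      have : ζ ^ 2 * ‖x a‖ ^ 2 ≤ ζ ^ 2 * nsq (cut (insert a T) x) := by gcongr
      linarith)
    rw [e4]
    nlinarith

theorem Phi_le_pow (hK : Bd K 1) (h0 : 0 < ζ) (h1 : ζ ^ 2 ≤ 1) (R B : Finset ι) :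
    Phi K ζ R B ≤ 2 ^ B.card := by
  induction B using Finset.induction_on with
  | empty => simp [Phi_empty]
  | insert a T ha ih =>
    refine (Phi_insert h0 h1 R ha).1.trans ?_
    rw [Finset.card_insert_of_notMem ha, pow_succ' (2 : ℝ)]
    have h2 : ∑ c ∈ R, ‖K c a‖ ^ 2 ≤ 1 := by
      refine le_trans ?_ ((hK.col a).trans (by norm_num))
      exact Finset.sum_le_sum_of_subset_of_nonneg (Finset.subset_univ R) fun _ _ _ => by positivity
    have := Phi_nonneg (K := K) (ζ := ζ) R T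
    exact mul_le_mul (by linarith) ih this (by norm_num)

theorem Phi_sdiff_ge (hK : Bd K 1) (h0 : 0 < ζ) (h1 : ζ ^ 2 ≤ 1) (R B T : Finset ι) :
    (ζ ^ 2 / 2) ^ B.card * Phi K ζ R T ≤ Phi K ζ (R \ B) T := by
  induction B using Finset.induction_on with
  | empty => simp
  | insert a S ha ih =>
    rw [Finset.sdiff_insert, Finset.card_insert_of_notMem ha, pow_succ', mul_assoc]
    refine le_trans ?_ (Phi_erase_ge hK h0 h1 _ T a)
    gcongr

theorem Phi_union_ge (h0 : 0 < ζ) (h1 : ζ ^ 2 ≤ 1) (R Z B : Finset ι) (hd : Disjoint B Z) :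
    (ζ ^ 2) ^ B.card * Phi K ζ R Z ≤ Phi K ζ R (B ∪ Z) := by
  induction B using Finset.induction_on with
  | empty => simp
  | insert a S ha ih =>
    rw [Finset.disjoint_insert_left] at hd
    rw [Finset.insert_union, Finset.card_insert_of_notMem ha, pow_succ', mul_assoc]
    refine le_trans ?_ ((Phi_insert h0 h1 R (T := S ∪ Z) (a := a) (by simp [ha, hd.1])).2 (ζ ^ 2)
      fun x => by linarith [nsq_nonneg (mask R (insert a (S ∪ Z)) K *ᵥ x)])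
    gcongr
    exact ih hd.2

theorem Phi_prod_ge (h0 : 0 < ζ) (h1 : ζ ^ 2 ≤ 1) (R Z : Finset ι) (μ : ι → ℝ)
    (hμ : ∀ a, 0 ≤ μ a) {δ : ℝ} (hδ0 : 0 ≤ δ) (hδ : δ ≤ 1)
    (hlow : ∀ x, (1 - δ) * ∑ z ∈ Z, μ z * ‖x z‖ ^ 2 ≤ nsq (mask R Z K *ᵥ x))
    (S : Finset ι) (hS : S ⊆ Z) :
    (1 - δ) ^ S.card * ∏ z ∈ S, (μ z + ζ ^ 2) ≤ Phi K ζ R S := by
  induction S using Finset.induction_on with
  | empty => simp [Phi_empty]
  | insert a S ha ih =>
    rw [Finset.card_insert_of_notMem ha, Finset.prod_insert ha]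
    have h2 := (Phi_insert (K := K) h0 h1 R ha).2 ((1 - δ) * (μ a + ζ ^ 2)) fun x => by
      have h3 := hlow (cut (insert a S) x)
      rw [mask_mulVec, cut_cut hS, ← mask_mulVec] at h3
      have h4 : μ a * ‖x a‖ ^ 2 ≤ ∑ z ∈ Z, μ z * ‖cut (insert a S) x z‖ ^ 2 := by
        refine le_trans (le_of_eq ?_) (Finset.single_le_sum
          (f := fun z => μ z * ‖cut (insert a S) x z‖ ^ 2)
          (fun z _ => mul_nonneg (hμ z) (by positivity)) (hS (Finset.mem_insert_self a S)))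
        simp [cut]
      have h5 : (1 - δ) * (μ a * ‖x a‖ ^ 2) ≤
          (1 - δ) * ∑ z ∈ Z, μ z * ‖cut (insert a S) x z‖ ^ 2 := by gcongr
      have : 0 ≤ δ * (ζ ^ 2 * ‖x a‖ ^ 2) := by positivity
      nlinarith
    refine le_trans ?_ h2
    have h6 := ih ((Finset.subset_insert a S).trans hS)
    have h7 : 0 ≤ (1 - δ) * (μ a + ζ ^ 2) := mul_nonneg (by linarith) (by have := hμ a; positivity)
    calc _ = (1 - δ) * (μ a + ζ ^ 2) * ((1 - δ) ^ S.card * ∏ z ∈ S, (μ z + ζ ^ 2)) := by ring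
      _ ≤ _ := by gcongr

end Lev

open Lev in
/-- **Leverage lemma.** -/
theorem leverage {K : Matrix ι ι ℂ} (hK : Bd K 1) (B P : Finset ι) (hBP : Disjoint B P)
    {ζ ε : ℝ} (h0 : 0 < ζ) (h1 : ζ ≤ 1) (hε0 : 0 < ε) (hε1 : ε ≤ 1) (m : ℕ) (μ : ι → ℝ)
    (hμ : ∀ a, 0 ≤ μ a) (hup : ∀ a ∈ P, ∑ c ∈ Finset.univ.erase a, ‖K c a‖ ^ 2 ≤ μ a)
    (hlow : ∀ Z ⊆ P, Z.card ≤ m →
      ∀ x, (1 - ε / 2) * ∑ z ∈ Z, μ z * ‖x z‖ ^ 2 ≤ nsq (mask Zᶜ Z K *ᵥ x))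
    (hm : 4 * B.card * Real.log (2 / ζ ^ 2) < m * ε) :
    ∃ Z ⊆ P, Z.card ≤ m ∧ ∀ a ∈ P, a ∉ Z → LevLe K ζ (B ∪ Z) a ε := by
  have h1' : ζ ^ 2 ≤ 1 := by nlinarith
  by_contra hc
  push Not at hc
  have key : ∀ k ≤ m, ∃ Z ⊆ P, Z.card = k ∧ Phi K ζ (B ∪ Z)ᶜ (B ∪ Z) ≤
      (1 - ε) ^ k * 2 ^ B.card * ∏ z ∈ Z, (μ z + ζ ^ 2) := by
    intro k
    induction k with
    | zero => exact fun _ => ⟨∅, by simp, rfl, by simpa using Phi_le_pow hK h0 h1' _ B⟩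
    | succ k ih =>
      intro hk
      obtain ⟨Z, hZ, hc1, hp⟩ := ih (by omega)
      obtain ⟨a, haP, haZ, hl⟩ := hc Z hZ (by omega)
      have haB : a ∉ B := fun h => Finset.disjoint_left.1 hBP h haP
      refine ⟨insert a Z, Finset.insert_subset haP hZ,
        by rw [Finset.card_insert_of_notMem haZ, hc1], ?_⟩
      rw [Finset.union_insert, Finset.compl_insert, Finset.prod_insert haZ]
      have e1 := (Phi_insert (K := K) h0 h1' ((B ∪ Z)ᶜ.erase a) (T := B ∪ Z) (a := a)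
        (by simp [haB, haZ])).1
      have e2 := Phi_erase_le h0 h1' (B ∪ Z) a hε0.le hl
      have e3 : ∑ c ∈ (B ∪ Z)ᶜ.erase a, ‖K c a‖ ^ 2 ≤ μ a :=
        le_trans (Finset.sum_le_sum_of_subset_of_nonneg
          (Finset.erase_subset_erase a (Finset.subset_univ _)) fun _ _ _ => by positivity)
          (hup a haP)
      have := Phi_nonneg (K := K) (ζ := ζ) ((B ∪ Z)ᶜ.erase a) (B ∪ Z)
      have := hμ a
      have h2 : 0 ≤ 1 - ε := by linarith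
      calc _ ≤ _ := e1
        _ ≤ (μ a + ζ ^ 2) * ((1 - ε) * Phi K ζ (B ∪ Z)ᶜ (B ∪ Z)) := by gcongr
        _ ≤ (μ a + ζ ^ 2) * ((1 - ε) * ((1 - ε) ^ k * 2 ^ B.card * ∏ z ∈ Z, (μ z + ζ ^ 2))) := by
          gcongr
        _ = _ := by ring
  obtain ⟨Z, hZ, hc1, hp⟩ := key m le_rfl
  have hd : Disjoint B Z := hBP.mono_right hZ
  have l1 := Phi_sdiff_ge hK h0 h1' Zᶜ B (B ∪ Z)
  have e : Zᶜ \ B = (B ∪ Z)ᶜ := by ext i; simp [and_comm]
  rw [e] at l1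
  have l2 := Phi_union_ge (K := K) h0 h1' Zᶜ Z B hd
  have l3 := Phi_prod_ge h0 h1' Zᶜ Z μ hμ (δ := ε / 2) (by linarith) (by linarith)
    (hlow Z hZ hc1.le) Z subset_rfl
  rw [hc1] at l3
  have hprod : 0 < ∏ z ∈ Z, (μ z + ζ ^ 2) :=
    Finset.prod_pos fun z _ => by have := hμ z; positivity
  have h3 : 0 < 1 - ε / 2 := by linarith
  have h4 : (1 - ε) ^ m ≤ (1 - ε / 2) ^ m * Real.exp (-(ε / 2)) ^ m := by
    rw [← mul_pow]
    have := Real.add_one_le_exp (-(ε / 2))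
    exact pow_le_pow_left₀ (by linarith) (by nlinarith) m
  have h5 : (ζ ^ 2 / 2) ^ B.card * ((ζ ^ 2) ^ B.card *
      ((1 - ε / 2) ^ m * ∏ z ∈ Z, (μ z + ζ ^ 2))) ≤
      (1 - ε / 2) ^ m * Real.exp (-(ε / 2)) ^ m * 2 ^ B.card * ∏ z ∈ Z, (μ z + ζ ^ 2) := by
    calc _ ≤ (ζ ^ 2 / 2) ^ B.card * ((ζ ^ 2) ^ B.card * Phi K ζ Zᶜ Z) := by gcongr
      _ ≤ (ζ ^ 2 / 2) ^ B.card * Phi K ζ Zᶜ (B ∪ Z) := by gcongr
      _ ≤ _ := l1
      _ ≤ _ := hp
      _ ≤ _ := by gcongr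
  have h6 : (ζ ^ 2 / 2) ^ (2 * B.card) ≤ Real.exp (-(ε / 2)) ^ m := by
    have h7 : 0 < (1 - ε / 2) ^ m * 2 ^ B.card * ∏ z ∈ Z, (μ z + ζ ^ 2) := by positivity
    refine le_of_mul_le_mul_right ?_ h7
    have h8 : (ζ ^ 2 / 2) ^ (2 * B.card) * 2 ^ B.card =
        (ζ ^ 2 / 2) ^ B.card * (ζ ^ 2) ^ B.card := by
      rw [two_mul, pow_add, mul_assoc, ← mul_pow]; congr 2; ring
    calc _ = (ζ ^ 2 / 2) ^ (2 * B.card) * 2 ^ B.card *
          ((1 - ε / 2) ^ m * ∏ z ∈ Z, (μ z + ζ ^ 2)) := by ring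
      _ = _ := by rw [h8, mul_assoc]
      _ ≤ _ := h5
      _ = _ := by ring
  have h9 := Real.log_le_log (by positivity) h6
  rw [Real.log_pow, Real.log_pow, Real.log_exp, ← inv_div, Real.log_inv] at h9
  push_cast at h9
  linarith

end Crest.Agent.N334.AC
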