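import Crest.Agent.N334.AC.Cls
import Crest.Agent.N334.AC.F.Defs

/-!
# Row 334, S0520 (helper12): Wegner estimate on cells, closing several components at once
-/

set_option autoImplicit false
set_option maxHeartbeats 400000
set_option linter.unusedSectionVars false

open Matrix Finset
open scoped ComplexConjugate

namespace Crest.Agent.N334.AC

namespace Wg

/-- a bounded primitive -/
noncomputable def ps (b y : ℝ) : ℝ := y / (|y| + b)

theorem abs_ps_le {b : ℝ} (hb : 0 < b) (y : ℝ) : |ps b y| ≤ 1 := by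
  have : 0 < |y| + b := by positivity
  rw [ps, abs_div, abs_of_pos this, div_le_one this]
  linarith

theorem ps_sub {b y y' : ℝ} (hb : 0 < b) (h : y ≤ y') :
    b * (y' - y) / ((|y'| + b) * (|y| + b)) ≤ ps b y' - ps b y := by
  have h1 : 0 < |y| + b := by positivity
  have h2 : 0 < |y'| + b := by positivity
  rw [ps, ps, div_sub_div _ _ h2.ne' h1.ne']
  refine div_le_div_of_nonneg_right ?_ (by positivity)
  rcases le_total 0 y with e | e
  · rw [abs_of_nonneg e, abs_of_nonneg (e.trans h)]; linarith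
  · rcases le_total 0 y' with e' | e'
    · rw [abs_of_nonpos e, abs_of_nonneg e']; nlinarith
    · rw [abs_of_nonpos e, abs_of_nonpos e']; linarith

theorem ps_mono {b y y' : ℝ} (hb : 0 < b) (h : y ≤ y') : ps b y ≤ ps b y' :=
  sub_nonneg.1 (le_trans (div_nonneg (mul_nonneg hb.le (sub_nonneg.2 h)) (by positivity))
    (ps_sub hb h))

theorem term_le {b l : ℝ} (hl : 0 < l) (hb : l ≤ b) (y : ℝ) :
    b / (y ^ 2 + b ^ 2) ≤ 5 / l * (ps b (y + l) - ps b y) := by
  have hb0 := hl.trans_le hb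
  refine le_trans ?_ (mul_le_mul_of_nonneg_left (ps_sub hb0 (le_add_of_nonneg_right hl.le))
    (by positivity))
  have h1 : |y + l| ≤ |y| + b := (abs_add_le _ _).trans (by rw [abs_of_pos hl]; linarith)
  have h2 : (|y + l| + b) * (|y| + b) ≤ 5 * (y ^ 2 + b ^ 2) := by
    refine (mul_le_mul_of_nonneg_right (add_le_add_left h1 b) (by positivity)).trans ?_
    nlinarith [sq_abs y, sq_nonneg (|y| - b), sq_nonneg y]
  rw [add_sub_cancel_left, div_mul_div_comm, div_le_div_iff₀ (by positivity) (by positivity)]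
  nlinarith [mul_le_mul_of_nonneg_left h2 (mul_pos hb0 hl).le]

/-- Poisson kernel summed over separated points -/
theorem sum_le {α : Type} [DecidableEq α] {b l : ℝ} (hl : 0 < l) (hb : l ≤ b) (a : ℝ) (c : α → ℝ)
    (J : Finset α) (hJ : ∀ i ∈ J, ∀ j ∈ J, i ≠ j → l ≤ |c i - c j|) :
    ∑ j ∈ J, b / ((c j - a) ^ 2 + b ^ 2) ≤ 10 / l := by
  have hb0 := hl.trans_le hb
  have key : ∀ X, (∀ j ∈ J, c j + l ≤ X) →
      ∑ j ∈ J, b / ((c j - a) ^ 2 + b ^ 2) ≤ 5 / l * (ps b (X - a) + 1) := by
    induction J using Finset.induction_on_max_value c with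
    | empty =>
      intro X _
      rw [sum_empty]
      exact mul_nonneg (by positivity) (by linarith [(abs_le.1 (abs_ps_le hb0 (X - a))).1])
    | insert i s hi hmax ih =>
      intro X hX
      have h1 := ih (fun x hx y hy => hJ x (mem_insert_of_mem hx) y (mem_insert_of_mem hy)) (c i)
        fun j hj => by
          have := hJ i (mem_insert_self _ _) j (mem_insert_of_mem hj) (by rintro rfl; exact hi hj)
          rw [abs_of_nonneg (sub_nonneg.2 (hmax j hj))] at this
          linarith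
      have h2 := term_le hl hb (c i - a)
      have h3 := ps_mono hb0 (show c i - a + l ≤ X - a by linarith [hX i (mem_insert_self _ _)])
      rw [sum_insert hi]
      nlinarith [mul_le_mul_of_nonneg_left h3 (show 0 ≤ 5 / l by positivity)]
  obtain ⟨X, hX⟩ := (J.image fun j => c j + l).bddAbove
  refine (key X fun j hj => hX (mem_coe.2 (mem_image_of_mem _ hj))).trans ?_
  rw [show 10 / l = 5 / l * 2 by ring]
  exact mul_le_mul_of_nonneg_left (by linarith [(abs_le.1 (abs_ps_le hb0 (X - a))).2])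
    (by positivity)

/-- Fubini in one coordinate of a product -/
theorem sum_pi_le {ι α : Type} [Fintype ι] [DecidableEq ι] [DecidableEq α] (J : ι → Finset α)
    (t : ι) (f : (ι → α) → ℝ) {B : ℝ}
    (h : ∀ j ∈ Fintype.piFinset J, ∑ i ∈ J t, f (Function.update j t i) ≤ B) :
    (J t).card * ∑ j ∈ Fintype.piFinset J, f j ≤ B * ∏ s, ((J s).card : ℝ) := by
  have mem : ∀ j ∈ Fintype.piFinset J, ∀ i ∈ J t, Function.update j t i ∈ Fintype.piFinset J :=
    fun j hj i hi => Fintype.mem_piFinset.2 fun s => by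
      rcases eq_or_ne s t with rfl | e
      · rwa [Function.update_self]
      · rw [Function.update_of_ne e]; exact Fintype.mem_piFinset.1 hj s
  have e : ∑ p ∈ Fintype.piFinset J ×ˢ J t, f p.1
      = ∑ p ∈ Fintype.piFinset J ×ˢ J t, f (Function.update p.1 t p.2) := by
    refine sum_nbij' (fun p => (Function.update p.1 t p.2, p.1 t))
      (fun p => (Function.update p.1 t p.2, p.1 t)) ?_ ?_ ?_ ?_ ?_
    iterate 2
      intro p hp
      have hp' := mem_product.1 hp
      exact mem_product.2 ⟨mem _ hp'.1 _ hp'.2, Fintype.mem_piFinset.1 hp'.1 t⟩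
    all_goals intro p _; simp
  rw [sum_product, sum_product] at e
  simp only [sum_const, nsmul_eq_mul, ← mul_sum] at e
  rw [e]
  refine (sum_le_sum h).trans (le_of_eq ?_)
  rw [sum_const, Fintype.card_piFinset, nsmul_eq_mul, mul_comm]
  push_cast
  rfl

end Wg

variable {ι : Type} [Fintype ι] [DecidableEq ι] {A : Matrix ι ι ℂ} {w w' : ι → ℂ}

/-- rank one: the diagonal entry as a function of a real shift -/
theorem exists_pole (h : Adm A w) (t : ι) {l : ℝ} (hl : 0 < l) (ht : l ≤ gam w t) :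
    ∃ a b : ℝ, l ≤ b ∧ ∀ (c : ℝ) (w' : ι → ℂ), Adm A w' → (∀ s, s ≠ t → w' s = w s) →
      w' t = w t + c → (Gm A w' t t).im ≤ b / ((c - a) ^ 2 + b ^ 2) := by
  have key : ∀ (c : ℝ) (w' : ι → ℂ), Adm A w' → (∀ s, s ≠ t → w' s = w s) → w' t = w t + c →
      Gm A w' t t = Gm A w t t - Gm A w t t * c * Gm A w' t t := fun c w' h' h1 h2 => by
    have := congrFun (congrFun (res1 h h') t) t
    rw [Matrix.sub_apply, Matrix.mul_apply, sum_eq_single t] at this
    · rwa [Dm, mul_diagonal, h2, add_sub_cancel_left] at this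
    · intro s _ hs
      rw [Dm, mul_diagonal, h1 s hs, sub_self, mul_zero, zero_mul]
    · simp
  by_cases hg : Gm A w t t = 0
  · refine ⟨0, l, le_rfl, fun c w' h' h1 h2 => ?_⟩
    rw [key c w' h' h1 h2, hg]
    simp only [zero_mul, sub_zero, Complex.zero_im]
    positivity
  have h0 : l * ‖Gm A w t t‖ ^ 2 ≤ (Gm A w t t).im := by
    rw [← h.ward_col t]
    exact (mul_le_mul_of_nonneg_right ht (by positivity)).trans (single_le_sum
      (f := fun a => gam w a * ‖Gm A w a t‖ ^ 2)
      (fun a _ => mul_nonneg (h.diss a) (by positivity)) (mem_univ t))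
  have hb : l ≤ -((Gm A w t t)⁻¹).im := by
    rw [Complex.inv_im, neg_div, neg_neg, le_div_iff₀ (Complex.normSq_pos.2 hg),
      Complex.normSq_eq_norm_sq]
    exact h0
  refine ⟨-((Gm A w t t)⁻¹).re, _, hb, fun c w' h' h1 h2 => le_of_eq ?_⟩
  have e : Gm A w' t t = ((Gm A w t t)⁻¹ + c)⁻¹ := by
    refine eq_inv_of_mul_eq_one_left ?_
    have := key c w' h' h1 h2
    field_simp
    linear_combination this
  rw [e, Complex.inv_im, Complex.normSq_apply]
  simp only [Complex.add_im, Complex.add_re, Complex.ofReal_im, Complex.ofReal_re, add_zero]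
  congr 1
  ring

/-- trace bound for a damped block -/
theorem bd_of_trace (h : Adm A w) {T : Finset ι} {l g : ℝ} (hl : 0 < l)
    (hT : ∀ a ∈ T, l ≤ gam w a) (hs : ∑ t ∈ T, (Gm A w t t).im ≤ l * g ^ 2) :
    Bd (mask T T (Gm A w)) g := by
  refine bd_hs _ (le_of_mul_le_mul_left (le_trans ?_ hs) hl)
  rw [sum_comm, mul_sum, ← sum_subset (subset_univ T) fun b _ hb => by simp [mask_apply, hb]]
  refine sum_le_sum fun b _ => ?_
  rw [← h.ward_col b, mul_sum]
  refine sum_le_sum fun a _ => ?_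
  rw [mask_apply]
  split_ifs with hab
  · exact mul_le_mul_of_nonneg_right (hT a hab.1) (by positivity)
  · simpa using mul_nonneg (h.diss a) (sq_nonneg _)

/-- close `T` at the real values `v` -/
def cls (w : ι → ℂ) (T : Finset ι) (v : ι → ℝ) : ι → ℂ := fun x => if x ∈ T then (v x : ℂ) else w x

theorem cls_of_mem {T : Finset ι} {v : ι → ℝ} {x : ι} (h : x ∈ T) : cls w T v x = v x := if_pos h
theorem cls_of_notMem {T : Finset ι} {v : ι → ℝ} {x : ι} (h : x ∉ T) : cls w T v x = w x := if_neg h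
theorem gam_cls_of_mem {T : Finset ι} {v : ι → ℝ} {x : ι} (h : x ∈ T) : gam (cls w T v) x = 0 := by
  simp [gam, cls_of_mem h]
theorem gam_cls_of_notMem {T : Finset ι} {v : ι → ℝ} {x : ι} (h : x ∉ T) :
    gam (cls w T v) x = gam w x := by rw [gam, cls_of_notMem h, gam]

/-- all closings of `T` within `l` of `c` are non-resonant -/
def WegOK (A : Matrix ι ι ℂ) (w : ι → ℂ) (T : Finset ι) (l : ℝ) (c : ι → ℝ) : Prop :=
  ∀ v : ι → ℝ, (∀ t ∈ T, |v t - c t| ≤ l) →
    Adm A (cls w T v) ∧ Bd (mask T T (Gm A (cls w T v))) (1 / (2 * l))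

namespace Wg

/-- the regularised closing -/
noncomputable def reg (w : ι → ℂ) (T : Finset ι) (l : ℝ) (c : ι → ℝ) : ι → ℂ :=
  fun x => if x ∈ T then (c x : ℂ) - l * Complex.I else w x

theorem gam_reg {T : Finset ι} {l : ℝ} {c : ι → ℝ} {x : ι} (h : x ∈ T) :
    gam (reg w T l c) x = l := by simp [gam, reg, h]

theorem adm_reg (h : Adm A w) (T : Finset ι) {l : ℝ} (hl : 0 < l) (c : ι → ℝ) :
    Adm A (reg w T l c) :=
  h.damp (T := T) (fun _ ha => if_neg ha) fun a ha => by rwa [gam_reg ha]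

theorem ok_of_trace (h : Adm A w) {T : Finset ι} {l : ℝ} (hl : 0 < l) {c : ι → ℝ}
    (hs : ∑ t ∈ T, (Gm A (reg w T l c) t t).im ≤ 1 / (16 * l)) : WegOK A w T l c := fun v hv => by
  have h1 := adm_reg h T hl c
  have h2 := bd_of_trace h1 hl (g := 1 / (4 * l)) (fun a ha => (gam_reg ha).ge)
    (hs.trans (le_of_eq (by field_simp; norm_num)))
  have := h1.pert (w' := cls w T v) (T := T) (fun a ha => by rw [cls_of_notMem ha, reg, if_neg ha])
    (u := 2 * l) (by positivity) (by positivity) (fun a ha => ?_) h2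
    (le_of_eq (by field_simp; norm_num)) fun a => ?_
  · rwa [show 2 * (1 / (4 * l)) = 1 / (2 * l) by field_simp; norm_num] at this
  · rw [cls_of_mem ha, reg, if_pos ha, ← sub_add, ← Complex.ofReal_sub]
    refine (norm_add_le _ _).trans ?_
    rw [norm_mul, Complex.norm_I, Complex.norm_real, Complex.norm_real, Real.norm_eq_abs,
      Real.norm_of_nonneg hl.le]
    linarith [hv a ha]
  · by_cases ha : a ∈ T
    · rw [gam_cls_of_mem ha]
    · rw [gam_cls_of_notMem ha]; exact h.diss a

/-- the regularised diagonal entry as a function of the cells -/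
noncomputable def fr {α : Type} (A : Matrix ι ι ℂ) (w : ι → ℂ) (T : Finset ι) (l : ℝ)
    (c : ι → α → ℝ) (t : ι) (j : ι → α) : ℝ := (Gm A (reg w T l fun s => c s (j s)) t t).im

theorem fr_nonneg {α : Type} (h : Adm A w) (T : Finset ι) {l : ℝ} (hl : 0 < l) (c : ι → α → ℝ)
    (t : ι) (j : ι → α) : 0 ≤ fr A w T l c t j := (adm_reg h T hl _).im_nonneg t

theorem fr_line {α : Type} [DecidableEq α] (h : Adm A w) {T : Finset ι} {l : ℝ} (hl : 0 < l)
    (c : ι → α → ℝ) {t : ι} (ht : t ∈ T) (J : Finset α)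
    (sep : ∀ i ∈ J, ∀ j ∈ J, i ≠ j → l ≤ |c t i - c t j|) (j : ι → α) :
    ∑ i ∈ J, fr A w T l c t (Function.update j t i) ≤ 10 / l := by
  obtain ⟨a, b, hb, H⟩ := exists_pole
    (adm_reg h T hl (Function.update (fun s => c s (j s)) t 0)) t hl (gam_reg ht).ge
  refine le_trans (sum_le_sum fun i _ => ?_) (sum_le hl hb a (c t) J sep)
  refine H (c t i) _ (adm_reg h T hl _) (fun s hs => ?_) ?_
  · simp [reg, Function.update_of_ne hs]
  · simp only [reg, ht, if_true, Function.update_self, Complex.ofReal_zero]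
    ring

theorem fr_sum {α : Type} [DecidableEq α] (h : Adm A w) {T : Finset ι} {l : ℝ} (hl : 0 < l)
    (c : ι → α → ℝ) {t : ι} (ht : t ∈ T) (J : ι → Finset α)
    (sep : ∀ i ∈ J t, ∀ j ∈ J t, i ≠ j → l ≤ |c t i - c t j|) :
    ∑ j ∈ Fintype.piFinset J, fr A w T l c t j
      ≤ 10 / l / ((J t).card : ℝ) * ∏ s, ((J s).card : ℝ) := by
  rcases (J t).eq_empty_or_nonempty with e | e
  · rw [Fintype.piFinset_eq_empty.2 ⟨t, e⟩, sum_empty, e]
    simp
  rw [div_mul_eq_mul_div, le_div_iff₀' (Nat.cast_pos.2 e.card_pos)]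
  exact sum_pi_le J t _ fun j _ => fr_line h hl c ht _ sep j

open Classical in
theorem ind_le {α : Type} (h : Adm A w) (T : Finset ι) {l : ℝ} (hl : 0 < l) (c : ι → α → ℝ)
    (j : ι → α) : (if WegOK A w T l fun t => c t (j t) then (0 : ℝ) else 1)
      ≤ 16 * l * ∑ t ∈ T, fr A w T l c t j := by
  split_ifs with e
  · exact mul_nonneg (by positivity) (sum_nonneg fun t _ => fr_nonneg h T hl c t j)
  · have := not_le.1 (mt (ok_of_trace h hl) e)
    rw [div_lt_iff₀' (by positivity)] at this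
    exact this.le

end Wg

open Classical in
/-- **Wegner estimate on cells** -/
theorem wegner {α : Type} (h : Adm A w) (T : Finset ι) (J : ι → Finset α) (c : ι → α → ℝ) {l : ℝ}
    (hl : 0 < l) (sep : ∀ t ∈ T, ∀ i ∈ J t, ∀ j ∈ J t, i ≠ j → l ≤ |c t i - c t j|) :
    ∑ j ∈ Fintype.piFinset J, (if WegOK A w T l fun t => c t (j t) then (0 : ℝ) else 1)
      ≤ (∑ t ∈ T, 160 / ((J t).card : ℝ)) * ∏ s, ((J s).card : ℝ) := by
  refine (sum_le_sum fun j _ => Wg.ind_le h T hl c j).trans ?_
  rw [← mul_sum, sum_comm]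
  refine (mul_le_mul_of_nonneg_left (sum_le_sum fun t ht => Wg.fr_sum h hl c ht J (sep t ht))
    (by positivity)).trans (le_of_eq ?_)
  rw [mul_sum, sum_mul]
  refine sum_congr rfl fun t _ => ?_
  field_simp
  ring

open Classical in
/-- Wegner estimate for the product step -/
theorem wegner_avg (h : Adm A w) (T : Finset ι) {m : ι → ℕ} (hm : ∀ x, 0 < m x) (c : ι → ℕ → ℝ)
    {l : ℝ} (hl : 0 < l) (sep : ∀ t ∈ T, ∀ i < m t, ∀ j < m t, i ≠ j → l ≤ |c t i - c t j|) :
    avgP m (fun ξ => if WegOK A w T l fun t => c t (ξ t) then (0 : ℝ) else 1)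
      ≤ ∑ t ∈ T, 160 / (m t : ℝ) := by
  have := wegner h T (fun x => range (m x)) c hl fun t ht i hi j hj =>
    sep t ht i (mem_range.1 hi) j (mem_range.1 hj)
  simp only [card_range] at this
  rw [avgP, div_le_iff₀ (prod_pos fun x _ => Nat.cast_pos.2 (hm x))]
  convert this

end Crest.Agent.N334.AC
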