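import Crest.Agent.N334.AC.Lev
import Crest.Agent.N334.AC.Iface

/-!
# Row 334, S0520 (helper74): Ward identity, leverage lemma for ports, release algebra
-/

set_option autoImplicit false

open Matrix Finset
open scoped ComplexConjugate

namespace Crest.Agent.N334.AC

variable {ι : Type} [Fintype ι] [DecidableEq ι]

/-- Ward identity `K* K = Im K` -/
def Ward (K : Matrix ι ι ℂ) : Prop := ∀ x, nsq (K *ᵥ x) = (star x ⬝ᵥ K *ᵥ x).im

omit [DecidableEq ι] in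
theorem Ward.bd {K : Matrix ι ι ℂ} (h : Ward K) : Bd K 1 := fun x => by
  have h1 := cs x (K *ᵥ x)
  have h2 : (star x ⬝ᵥ K *ᵥ x).im ^ 2 ≤ ‖star x ⬝ᵥ K *ᵥ x‖ ^ 2 := by
    rw [← sq_abs]; gcongr; exact Complex.abs_im_le_norm _
  rw [← h x] at h2
  rcases (nsq_nonneg (K *ᵥ x)).eq_or_lt with h0 | h0
  · rw [← h0]; have := nsq_nonneg x; positivity
  · nlinarith

theorem Ward.col {K : Matrix ι ι ℂ} (h : Ward K) (a : ι) : ∑ c, ‖K c a‖ ^ 2 = (K a a).im := by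
  have := h (Pi.single a 1)
  simpa [nsq, dotProduct, Pi.single_apply, apply_ite] using this

theorem Ward.row {K : Matrix ι ι ℂ} (h : Ward K) (hs : K.IsSymm) (a : ι) :
    ∑ c, ‖K a c‖ ^ 2 = (K a a).im := by
  rw [← h.col a]; exact Finset.sum_congr rfl fun c _ => by rw [hs.apply]

theorem Ward.col_erase {K : Matrix ι ι ℂ} (h : Ward K) (a : ι) :
    ∑ c ∈ Finset.univ.erase a, ‖K c a‖ ^ 2 = (K a a).im - ‖K a a‖ ^ 2 := by
  rw [← h.col a, ← Finset.add_sum_erase _ _ (Finset.mem_univ a)]; ring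

theorem Gm_mul {A : Matrix ι ι ℂ} {w : ι → ℂ} (h : Adm A w) : Gm A w * Hm A w = 1 :=
  nonsing_inv_mul _ h.inv

theorem mul_Gm {A : Matrix ι ι ℂ} {w : ι → ℂ} (h : Adm A w) : Hm A w * Gm A w = 1 :=
  mul_nonsing_inv _ h.inv

theorem Gm_isSymm {A : Matrix ι ι ℂ} {w : ι → ℂ} (h : A.IsSymm) : (Gm A w).IsSymm := by
  unfold Gm Hm Matrix.IsSymm
  rw [transpose_nonsing_inv, transpose_add, h.eq, diagonal_transpose]

theorem Km_isSymm {A : Matrix ι ι ℂ} {w : ι → ℂ} (h : A.IsSymm) : (Km A w).IsSymm := by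
  ext a b
  simp only [transpose_apply, Km]
  rw [(Gm_isSymm h).apply]; ring

theorem Km_eq (A : Matrix ι ι ℂ) (w : ι → ℂ) : Km A w =
    diagonal (fun a => (√(gam w a) : ℂ)) * Gm A w * diagonal (fun a => (√(gam w a) : ℂ)) := by
  ext a b; simp [Km]

/-- Ward identity for `G`: `∑ γ |G x|² = Im ⟨x, G x⟩` -/
theorem Gm_ward {A : Matrix ι ι ℂ} {w : ι → ℂ} (h : Adm A w) (x : ι → ℂ) :
    ∑ a, gam w a * ‖(Gm A w *ᵥ x) a‖ ^ 2 = (star x ⬝ᵥ Gm A w *ᵥ x).im := by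
  set u := Gm A w *ᵥ x with hu
  have hx : x = A *ᵥ u + fun a => w a * u a := by
    have : Hm A w *ᵥ u = x := by rw [hu, mulVec_mulVec, mul_Gm h, one_mulVec]
    rw [← this, Hm, add_mulVec]
    congr 1; funext a; rw [mulVec_diagonal]
  have hA : (star (A *ᵥ u) ⬝ᵥ u).im = 0 := by
    have h1 : star (A *ᵥ u) ⬝ᵥ u = star u ⬝ᵥ A *ᵥ u := by
      rw [star_mulVec, h.herm.eq, dotProduct_mulVec (star u) A u]
    have h2 : star (star (A *ᵥ u) ⬝ᵥ u) = star u ⬝ᵥ A *ᵥ u := by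
      rw [← star_dotProduct_star, star_star, dotProduct_comm]
    rw [← h1] at h2
    exact Complex.conj_eq_iff_im.1 h2
  conv_rhs => rw [hx]
  rw [star_add, add_dotProduct, Complex.add_im, hA, zero_add, dotProduct, Complex.im_sum]
  refine Finset.sum_congr rfl fun a _ => ?_
  have : star (fun a => w a * u a) a * u a = conj (w a) * (‖u a‖ ^ 2 : ℝ) := by
    simp [mul_assoc, Complex.conj_mul']
  rw [this, Complex.mul_im, Complex.ofReal_im, Complex.ofReal_re]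
  simp [gam]

theorem Adm.wardK {A : Matrix ι ι ℂ} {w : ι → ℂ} (h : Adm A w) : Ward (Km A w) := fun x => by
  have h1 := Gm_ward h fun a => (√(gam w a) : ℂ) * x a
  have h2 : Km A w *ᵥ x = fun a => (√(gam w a) : ℂ) *
      (Gm A w *ᵥ fun a => (√(gam w a) : ℂ) * x a) a := by
    funext a; simp [Km, mulVec, dotProduct, Finset.mul_sum, mul_assoc]
  rw [h2]
  convert h1 using 1
  · refine Finset.sum_congr rfl fun a _ => ?_
    rw [norm_mul, mul_pow, Complex.norm_real, Real.norm_of_nonneg (Real.sqrt_nonneg _),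
      Real.sq_sqrt (h.diss a)]
  · congr 1
    refine Finset.sum_congr rfl fun a _ => ?_
    simp; ring

/-- the columns of few ordinary ports are almost orthogonal -/
theorem Ward.low {K : Matrix ι ι ℂ} (hW : Ward K) (Z : Finset ι) {h : ℝ} (h0 : 0 ≤ h)
    (hh : ∀ a ∈ Z, ∀ b ∈ Z, a ≠ b → ‖K a b‖ ≤ h) (hm : Z.card * h ≤ 1) (x : ι → ℂ) :
    ∑ z ∈ Z, ((K z z).im - ‖K z z‖ ^ 2) * ‖x z‖ ^ 2 - 4 * (Z.card * h) * ∑ z ∈ Z, ‖x z‖ ^ 2 ≤
      nsq (mask Zᶜ Z K *ᵥ x) := by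
  set y := K *ᵥ cut Z x with hy
  set s := ∑ z ∈ Z, ‖x z‖ with hs
  set n := ∑ z ∈ Z, ‖x z‖ ^ 2 with hn
  have hs0 : 0 ≤ s := Finset.sum_nonneg fun _ _ => norm_nonneg _
  have hsn : s ^ 2 ≤ Z.card * n := sq_sum_le_card_mul_sum_sq
  have he : ∀ c ∈ Z, ‖y c - K c c * x c‖ ≤ h * s := by
    intro c hc
    have h1 : y c = ∑ b ∈ Z, K c b * x b := by
      rw [hy]; unfold mulVec dotProduct cut
      rw [← Finset.sum_subset (Finset.subset_univ Z) (fun i _ hi => by simp [hi])]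
      exact Finset.sum_congr rfl fun i hi => by simp [hi]
    rw [h1, ← Finset.add_sum_erase _ _ hc, add_sub_cancel_left, hs, Finset.mul_sum]
    refine (norm_sum_le _ _).trans ((Finset.sum_le_sum fun b hb => ?_).trans
      (Finset.sum_le_sum_of_subset_of_nonneg (Finset.erase_subset c Z) fun _ _ _ => by positivity))
    rw [norm_mul]
    gcongr
    exact hh c hc b (Finset.mem_of_mem_erase hb) (Finset.ne_of_mem_erase hb).symm
  have hK1 : ∀ c, ‖K c c‖ ≤ 1 := fun c => hW.bd.entry zero_le_one c c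
  have h1 : ∑ z ∈ Z, (K z z).im * ‖x z‖ ^ 2 - h * s ^ 2 ≤ nsq y := by
    rw [hy, hW, ← hy, dotProduct, Complex.im_sum,
      ← Finset.sum_subset (Finset.subset_univ Z) (fun i _ hi => by simp [cut, hi])]
    have : h * s ^ 2 = ∑ z ∈ Z, ‖x z‖ * (h * s) := by rw [← Finset.sum_mul, ← hs]; ring
    rw [this, ← Finset.sum_sub_distrib]
    refine Finset.sum_le_sum fun c hc => ?_
    have e : star (cut Z x) c * y c =
        K c c * (‖x c‖ ^ 2 : ℝ) + conj (x c) * (y c - K c c * x c) := by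
      simp [cut, hc, ← Complex.conj_mul']; ring
    rw [e, Complex.add_im, Complex.mul_im, Complex.ofReal_im, Complex.ofReal_re]
    have h2 : |(conj (x c) * (y c - K c c * x c)).im| ≤ ‖x c‖ * (h * s) := by
      refine (Complex.abs_im_le_norm _).trans ?_
      rw [norm_mul, Complex.norm_conj]
      gcongr; exact he c hc
    have := neg_abs_le (conj (x c) * (y c - K c c * x c)).im
    linarith
  have h2 : nsq (cut Z y) ≤
      ∑ z ∈ Z, ‖K z z‖ ^ 2 * ‖x z‖ ^ 2 + 2 * h * s ^ 2 + Z.card * (h * s) ^ 2 := by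
    have : 2 * h * s ^ 2 = ∑ z ∈ Z, 2 * ‖x z‖ * (h * s) := by
      rw [← Finset.sum_mul, ← Finset.mul_sum, ← hs]; ring
    rw [nsq_cut, this, ← nsmul_eq_mul, ← Finset.sum_const, ← Finset.sum_add_distrib,
      ← Finset.sum_add_distrib]
    refine Finset.sum_le_sum fun c hc => ?_
    have h3 : ‖y c‖ ≤ ‖K c c‖ * ‖x c‖ + h * s := by
      have := norm_add_le (K c c * x c) (y c - K c c * x c)
      rw [add_sub_cancel, norm_mul] at this
      linarith [he c hc]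
    have h4 : ‖K c c‖ * ‖x c‖ * (h * s) ≤ 1 * ‖x c‖ * (h * s) := by gcongr; exact hK1 c
    calc ‖y c‖ ^ 2 ≤ (‖K c c‖ * ‖x c‖ + h * s) ^ 2 := by gcongr
      _ ≤ _ := by nlinarith
  rw [mask_mulVec, ← hy]
  have h3 := nsq_cut_add Z y
  have h4 : h * s ^ 2 ≤ Z.card * h * n := by nlinarith
  have hn0 : 0 ≤ Z.card * h * n := le_trans (by positivity) h4
  have h5 : Z.card * (h * s) ^ 2 ≤ Z.card * h * n := by
    calc _ = Z.card * h * (h * s ^ 2) := by ring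
      _ ≤ 1 * (Z.card * h * n) := by gcongr
      _ = _ := one_mul _
  simp only [sub_mul, Finset.sum_sub_distrib]
  linarith

/-- **Leverage lemma for ports**: `P` = ordinary ports (small mutual entries, leak `≥ μ0`). -/
theorem Ward.leverage {K : Matrix ι ι ℂ} (hW : Ward K) (B P : Finset ι) (hBP : Disjoint B P)
    {ζ ε h μ0 : ℝ} (h0 : 0 < ζ) (h1 : ζ ≤ 1) (hε0 : 0 < ε) (hε1 : ε ≤ 1) (m : ℕ) (hh0 : 0 ≤ h)
    (hh : ∀ a ∈ P, ∀ b ∈ P, a ≠ b → ‖K a b‖ ≤ h)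
    (hμ : ∀ a ∈ P, μ0 ≤ (K a a).im - ‖K a a‖ ^ 2) (hmh : 8 * (m * h) ≤ ε * μ0)
    (hm : 4 * B.card * Real.log (2 / ζ ^ 2) < m * ε) :
    ∃ Z ⊆ P, Z.card ≤ m ∧ ∀ a ∈ P, a ∉ Z → LevLe K ζ (B ∪ Z) a ε := by
  refine AC.leverage hW.bd B P hBP h0 h1 hε0 hε1 m (fun a => (K a a).im - ‖K a a‖ ^ 2)
    (fun a => ?_) (fun a _ => (hW.col_erase a).le) (fun Z hZ hc x => ?_) hm
  · rw [← hW.col_erase]; positivity
  rcases Z.eq_empty_or_nonempty with rfl | ⟨z, hz⟩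
  · simpa using nsq_nonneg _
  have hc' : (Z.card : ℝ) * h ≤ m * h := by gcongr
  have hμ1 : μ0 ≤ 1 := by
    have h2 := hμ z (hZ hz)
    have h3 := (Complex.im_le_norm (K z z)).trans (hW.bd.entry zero_le_one z z)
    nlinarith
  have h2 := hW.low Z hh0 (fun a ha b hb => hh a (hZ ha) b (hZ hb)) (by nlinarith) x
  have h3 : μ0 * ∑ z ∈ Z, ‖x z‖ ^ 2 ≤ ∑ z ∈ Z, ((K z z).im - ‖K z z‖ ^ 2) * ‖x z‖ ^ 2 := by
    rw [Finset.mul_sum]
    exact Finset.sum_le_sum fun a ha => by gcongr; exact hμ a (hZ ha)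
  have h4 : 0 ≤ ∑ z ∈ Z, ‖x z‖ ^ 2 := by positivity
  have h5 : 4 * (Z.card * h) * ∑ z ∈ Z, ‖x z‖ ^ 2 ≤ ε / 2 * (μ0 * ∑ z ∈ Z, ‖x z‖ ^ 2) := by
    rw [← mul_assoc (ε / 2)]
    exact mul_le_mul_of_nonneg_right (by linarith) h4
  nlinarith

/-! ## Consequences of small leverage -/

section Lev

variable {K : Matrix ι ι ℂ} {ζ ε : ℝ} {T : Finset ι} {a : ι}

theorem LevLe.mono (h : LevLe K ζ T a ε) {ε' : ℝ} (hε : ε ≤ ε') : LevLe K ζ T a ε' := fun x =>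
  (h x).trans (by have := nsq_nonneg (mask Tᶜ T K *ᵥ x); have := nsq_nonneg x; gcongr)

theorem levLe_one : LevLe K ζ T a 1 := fun x => by
  have := sq_le_nsq (mask Tᶜ T K *ᵥ x) a
  have := nsq_nonneg x
  nlinarith [sq_nonneg ζ]

theorem levLe_of_mem (ha : a ∈ T) : LevLe K ζ T a 0 := fun x => by
  simp [mask_mulVec, cut, ha]

theorem nsq_mask_row (R T : Finset ι) (K : Matrix ι ι ℂ) {a : ι} (ha : a ∈ R) :
    nsq (mask R T K a) = ∑ b ∈ T, ‖K a b‖ ^ 2 := by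
  rw [← nsq_cut]; congr 1; funext b; simp [mask, cut, ha]

/-- far rows -/
theorem levLe_of_mass (h0 : 0 < ζ) {t : ℝ} (h : ∑ b ∈ T, ‖K a b‖ ^ 2 ≤ t) :
    LevLe K ζ T a (t / ζ ^ 2) := by
  have ht : 0 ≤ t := le_trans (by positivity) h
  by_cases ha : a ∈ T
  · exact (levLe_of_mem ha).mono (by positivity)
  intro x
  have h1 := cs' (mask Tᶜ T K a) x
  rw [nsq_mask_row _ _ _ (by simpa using ha)] at h1
  have h2 := nsq_nonneg x
  have h3 := nsq_nonneg (mask Tᶜ T K *ᵥ x)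
  calc _ ≤ _ := h1
    _ ≤ t * nsq x := by gcongr
    _ = t / ζ ^ 2 * (0 + ζ ^ 2 * nsq x) := by field_simp; ring
    _ ≤ _ := by gcongr

/-- mass of the row on `T` -/
theorem LevLe.mass (h : LevLe K ζ T a ε) (hK : Bd K 1) (h1 : ζ ^ 2 ≤ 1) (hε : 0 ≤ ε) :
    nsq (mask Tᶜ T K a) ≤ 2 * ε := by
  have h2 := h (star (mask Tᶜ T K a))
  have h3 : (mask Tᶜ T K *ᵥ star (mask Tᶜ T K a)) a = (nsq (mask Tᶜ T K a) : ℂ) := by
    rw [← dot_self, dotProduct_comm]; rfl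
  have h4 := hK.mask Tᶜ T (star (mask Tᶜ T K a))
  rw [h3, Complex.norm_real, Real.norm_of_nonneg (nsq_nonneg _), nsq_star] at h2
  rw [nsq_star] at h4
  rcases (nsq_nonneg (mask Tᶜ T K a)).eq_or_lt with h0 | h0
  · rw [← h0]; positivity
  · have : ε * (nsq (mask Tᶜ T K *ᵥ star (mask Tᶜ T K a)) + ζ ^ 2 * nsq (mask Tᶜ T K a)) ≤
        ε * (2 * nsq (mask Tᶜ T K a)) := by gcongr; nlinarith
    nlinarith

/-- the change `W Tm Wᵀ` of `K` when the ports of `T` are closed -/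
def relD (K : Matrix ι ι ℂ) (T : Finset ι) (Tm : Matrix ι ι ℂ) : Matrix ι ι ℂ :=
  mask Tᶜ T K * Tm * (mask Tᶜ T K)ᵀ

theorem relD_transpose (Tm : Matrix ι ι ℂ) : (relD K T Tm)ᵀ = relD K T Tmᵀ := by
  simp [relD, transpose_mul, Matrix.mul_assoc]

variable {Tm : Matrix ι ι ℂ} {Λ : ℝ}

theorem LevLe.apply (h : LevLe K ζ T a ε) (hε : 0 ≤ ε) (hT : Bd Tm Λ) (hΛ : (ζ * Λ) ^ 2 ≤ 1)
    (y : ι → ℂ) : ‖(relD K T Tm *ᵥ y) a‖ ^ 2 ≤
      ε * (nsq (relD K T Tm *ᵥ y) + nsq ((mask Tᶜ T K)ᵀ *ᵥ y)) := by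
  have h1 := h (Tm *ᵥ (mask Tᶜ T K)ᵀ *ᵥ y)
  have h2 := hT ((mask Tᶜ T K)ᵀ *ᵥ y)
  have h3 := nsq_nonneg ((mask Tᶜ T K)ᵀ *ᵥ y)
  have e : mask Tᶜ T K *ᵥ Tm *ᵥ (mask Tᶜ T K)ᵀ *ᵥ y = relD K T Tm *ᵥ y := by
    rw [mulVec_mulVec, mulVec_mulVec, relD]
  rw [e] at h1
  refine h1.trans ?_
  gcongr
  calc _ ≤ ζ ^ 2 * (Λ ^ 2 * nsq ((mask Tᶜ T K)ᵀ *ᵥ y)) := by gcongr
    _ = (ζ * Λ) ^ 2 * nsq ((mask Tᶜ T K)ᵀ *ᵥ y) := by ring
    _ ≤ 1 * _ := by gcongr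
    _ = _ := one_mul _

/-- rows of the change -/
theorem LevLe.row (h : LevLe K ζ T a ε) (hK : Bd K 1) (hε : 0 ≤ ε) (hT : Bd Tm Λ)
    (hΛ : (ζ * Λ) ^ 2 ≤ 1) (hD : Bd (relD K T Tm) 2) : nsq (relD K T Tm a) ≤ 5 * ε := by
  have h2 := h.apply hε hT hΛ (star (relD K T Tm a))
  have h3 : (relD K T Tm *ᵥ star (relD K T Tm a)) a = (nsq (relD K T Tm a) : ℂ) := by
    rw [← dot_self, dotProduct_comm]; rfl
  have h4 := (hK.mask Tᶜ T).transpose (star (relD K T Tm a))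
  have h5 := hD (star (relD K T Tm a))
  rw [h3, Complex.norm_real, Real.norm_of_nonneg (nsq_nonneg _)] at h2
  rw [nsq_star] at h4 h5
  rcases (nsq_nonneg (relD K T Tm a)).eq_or_lt with h0 | h0
  · rw [← h0]; positivity
  · have : ε * (nsq (relD K T Tm *ᵥ star (relD K T Tm a)) +
        nsq ((mask Tᶜ T K)ᵀ *ᵥ star (relD K T Tm a))) ≤ ε * (5 * nsq (relD K T Tm a)) := by
      gcongr; linarith
    nlinarith

/-- entries of the change -/
theorem LevLe.entry (h : LevLe K ζ T a ε) {b : ι} {ε' : ℝ} (h' : LevLe K ζ T b ε') (hK : Bd K 1)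
    (h1 : ζ ^ 2 ≤ 1) (hε : 0 ≤ ε) (hε' : 0 ≤ ε') (hT : Bd Tm Λ) (hΛ : (ζ * Λ) ^ 2 ≤ 1)
    (hD : Bd (relD K T Tm) 2) : ‖relD K T Tm a b‖ ^ 2 ≤ 7 * (ε * ε') := by
  have h2 := h.apply hε hT hΛ (Pi.single b 1)
  have h3 := h'.row hK hε' hT.transpose hΛ (by rw [← relD_transpose]; exact hD.transpose)
  have h4 := h'.mass hK h1 hε'
  rw [← relD_transpose] at h3
  rw [mulVec_single_one, mulVec_single_one] at h2
  change ‖relD K T Tm a b‖ ^ 2 ≤ ε * (nsq ((relD K T Tm)ᵀ b) + nsq (mask Tᶜ T K b)) at h2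
  nlinarith

end Lev

end Crest.Agent.N334.AC
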