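import Crest.Agent.N334.AC.Rel

/-!
# Row 334, S0520 (helper74): the leverage scores and the change of the port energy at a release
-/

set_option autoImplicit false

open Matrix Finset
open scoped ComplexConjugate

namespace Crest.Agent.N334.AC

variable {ι : Type} [Fintype ι] [DecidableEq ι]

open Lev

namespace Lev

/-- projection on the range of the regularised block -/
noncomputable def PP (K : Matrix ι ι ℂ) (ζ : ℝ) (T : Finset ι) : Matrix (ι ⊕ ι) (ι ⊕ ι) ℂ :=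
  VV K ζ Tᶜ T * ((VV K ζ Tᶜ T)ᴴ * VV K ζ Tᶜ T)⁻¹ * (VV K ζ Tᶜ T)ᴴ

variable {K : Matrix ι ι ℂ} {ζ : ℝ} {T : Finset ι}

theorem PP_herm : (PP K ζ T)ᴴ = PP K ζ T := by
  simp [PP, conjTranspose_mul, conjTranspose_nonsing_inv, Matrix.mul_assoc]

theorem inv_gram (h0 : 0 < ζ) (h1 : ζ ^ 2 ≤ 1) :
    ((VV K ζ Tᶜ T)ᴴ * VV K ζ Tᶜ T)⁻¹ * ((VV K ζ Tᶜ T)ᴴ * VV K ζ Tᶜ T) = 1 :=
  nonsing_inv_mul _ (isUnit_iff_ne_zero.2 (gram_det_ne _ (VV_inj h0 h1 _ _)))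

theorem PP_VV (h0 : 0 < ζ) (h1 : ζ ^ 2 ≤ 1) : PP K ζ T * VV K ζ Tᶜ T = VV K ζ Tᶜ T := by
  rw [PP, Matrix.mul_assoc, Matrix.mul_assoc, inv_gram h0 h1, Matrix.mul_one]

theorem PP_PP (h0 : 0 < ζ) (h1 : ζ ^ 2 ≤ 1) : PP K ζ T * PP K ζ T = PP K ζ T := by
  conv_lhs => enter [2]; rw [PP]
  rw [← Matrix.mul_assoc, ← Matrix.mul_assoc, PP_VV h0 h1, PP]

theorem PP_diag (h0 : 0 < ζ) (h1 : ζ ^ 2 ≤ 1) (k : ι ⊕ ι) :
    PP K ζ T k k = (nsq (PP K ζ T k) : ℂ) := by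
  conv_lhs => rw [← PP_PP h0 h1]; enter [2]; rw [← PP_herm]
  rw [← dot_self, dotProduct_comm]; rfl

theorem PP_trace (h0 : 0 < ζ) (h1 : ζ ^ 2 ≤ 1) :
    ∑ k, nsq (PP K ζ T k) = Fintype.card ι := by
  have : (PP K ζ T).trace = Fintype.card ι := by
    rw [PP, trace_mul_cycle, trace_mul_comm, inv_gram h0 h1, trace_one]
  simp only [trace, diag_apply, PP_diag h0 h1] at this
  exact_mod_cast this

theorem PP_pad (h0 : 0 < ζ) (h1 : ζ ^ 2 ≤ 1) {i : ι} (hi : i ∉ T) :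
    nsq (PP K ζ T (Sum.inr i)) = 1 := by
  have h2 := congrFun (congrFun (PP_VV (K := K) (T := T) h0 h1) (Sum.inr i)) i
  rw [Matrix.mul_apply, Finset.sum_eq_single (Sum.inr i), PP_diag h0 h1] at h2
  · simp [VV, hi] at h2
    exact_mod_cast h2
  · rintro (b | b) _ hb
    · simp [VV, mask, hi]
    · have : b ≠ i := fun h => hb (by rw [h])
      simp [VV, this]
  · simp

end Lev

/-- the `ζ`-regularised leverage score of row `a` of `K[Tᶜ,T]` -/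
noncomputable def lev (K : Matrix ι ι ℂ) (ζ : ℝ) (T : Finset ι) (a : ι) : ℝ :=
  nsq (PP K ζ T (Sum.inl a))

variable {K : Matrix ι ι ℂ} {ζ : ℝ} {T : Finset ι}

theorem lev_nonneg (a : ι) : 0 ≤ lev K ζ T a := nsq_nonneg _

theorem sum_lev_le (h0 : 0 < ζ) (h1 : ζ ^ 2 ≤ 1) : ∑ a, lev K ζ T a ≤ T.card := by
  have h2 := PP_trace (K := K) (T := T) h0 h1
  rw [Fintype.sum_sum_type] at h2
  have h3 : ∑ i ∈ Tᶜ, nsq (PP K ζ T (Sum.inr i)) ≤ ∑ i, nsq (PP K ζ T (Sum.inr i)) :=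
    Finset.sum_le_sum_of_subset_of_nonneg (Finset.subset_univ _) fun _ _ _ => nsq_nonneg _
  rw [Finset.sum_congr rfl fun i hi => PP_pad h0 h1 (Finset.mem_compl.1 hi)] at h3
  have h4 : ((T.card + Tᶜ.card : ℕ) : ℝ) = Fintype.card ι := by rw [Finset.card_add_card_compl]
  simp only [Finset.sum_const, nsmul_eq_mul, mul_one] at h3
  push_cast at h4
  unfold lev
  linarith

theorem VV_inl (x : ι → ℂ) (a : ι) :
    (VV K ζ Tᶜ T *ᵥ x) (Sum.inl a) = (mask Tᶜ T K *ᵥ x) a := by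
  unfold VV; rw [fromRows_mulVec, Sum.elim_inl]

theorem nsq_VV_cut (x : ι → ℂ) : nsq (VV K ζ Tᶜ T *ᵥ cut T x) =
    nsq (mask Tᶜ T K *ᵥ x) + ζ ^ 2 * nsq (cut T x) := by
  have h5 : cut Tᶜ (cut T x) = 0 := by
    funext i; by_cases hi : i ∈ T <;> simp [cut, hi]
  rw [nsq_VV, h5, nsq_zero, add_zero, cut_cut subset_rfl, mask_mulVec, mask_mulVec,
    cut_cut subset_rfl]

theorem levLe_lev (h0 : 0 < ζ) (h1 : ζ ^ 2 ≤ 1) (a : ι) : LevLe K ζ T a (lev K ζ T a) := by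
  intro x
  have h2 : (mask Tᶜ T K *ᵥ x) a = PP K ζ T (Sum.inl a) ⬝ᵥ VV K ζ Tᶜ T *ᵥ cut T x := by
    have : (mask Tᶜ T K *ᵥ x) a = (VV K ζ Tᶜ T *ᵥ cut T x) (Sum.inl a) := by
      rw [VV_inl, mask_mulVec, mask_mulVec, cut_cut subset_rfl]
    rw [this]
    conv_lhs => rw [← PP_VV h0 h1, ← mulVec_mulVec]
    rfl
  rw [h2]
  refine (cs' _ _).trans ?_
  rw [nsq_VV_cut]
  have := lev_nonneg (K := K) (ζ := ζ) (T := T) a
  unfold lev at this ⊢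
  gcongr
  exact nsq_cut_le _ _

theorem LevLe.lev_le {a : ι} {ε : ℝ} (h : LevLe K ζ T a ε) (h0 : 0 < ζ) (h1 : ζ ^ 2 ≤ 1)
    (hε : 0 ≤ ε) : lev K ζ T a ≤ ε := by
  set x := (((VV K ζ Tᶜ T)ᴴ * VV K ζ Tᶜ T)⁻¹ * (VV K ζ Tᶜ T)ᴴ) *ᵥ Pi.single (Sum.inl a) 1
    with hx
  have h2 : VV K ζ Tᶜ T *ᵥ x = star (PP K ζ T (Sum.inl a)) := by
    rw [hx, mulVec_mulVec, ← Matrix.mul_assoc, mulVec_single_one]
    change (PP K ζ T).col (Sum.inl a) = _
    conv_lhs => rw [← PP_herm]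
    rfl
  have h3 := h (cut T x)
  have h4 : (mask Tᶜ T K *ᵥ cut T x) a = (lev K ζ T a : ℂ) := by
    rw [mask_mulVec, cut_cut subset_rfl, ← mask_mulVec, ← VV_inl (ζ := ζ), h2, Pi.star_apply,
      PP_diag h0 h1]
    simp [lev]
  have h5 : nsq (mask Tᶜ T K *ᵥ cut T x) + ζ ^ 2 * nsq (cut T x) ≤ lev K ζ T a := by
    have := nsq_VV (K := K) (ζ := ζ) Tᶜ T x
    rw [h2, nsq_star] at this
    rw [mask_mulVec, cut_cut subset_rfl, ← mask_mulVec, lev, this]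
    linarith [nsq_nonneg (cut Tᶜ x)]
  rw [h4, Complex.norm_real, Real.norm_of_nonneg (lev_nonneg a)] at h3
  rcases (lev_nonneg (K := K) (ζ := ζ) (T := T) a).eq_or_lt with h6 | h6
  · rw [← h6]; exact hε
  · have := mul_le_mul_of_nonneg_left h5 hε
    nlinarith

theorem lev_le_one (h0 : 0 < ζ) (h1 : ζ ^ 2 ≤ 1) (a : ι) : lev K ζ T a ≤ 1 :=
  levLe_one.lev_le h0 h1 zero_le_one

theorem lev_of_mem (h0 : 0 < ζ) (h1 : ζ ^ 2 ≤ 1) {a : ι} (ha : a ∈ T) : lev K ζ T a = 0 :=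
  le_antisymm ((levLe_of_mem ha).lev_le h0 h1 le_rfl) (lev_nonneg a)

theorem lev_le_of_mass (h0 : 0 < ζ) (h1 : ζ ^ 2 ≤ 1) {a : ι} {t : ℝ}
    (h : ∑ b ∈ T, ‖K a b‖ ^ 2 ≤ t) : lev K ζ T a ≤ t / ζ ^ 2 :=
  (levLe_of_mass h0 h).lev_le h0 h1 (div_nonneg (le_trans (by positivity) h) (by positivity))

theorem mass_le_lev (hK : Bd K 1) (h0 : 0 < ζ) (h1 : ζ ^ 2 ≤ 1) {a : ι} (ha : a ∉ T) :
    ∑ b ∈ T, ‖K a b‖ ^ 2 ≤ 2 * lev K ζ T a := by
  rw [← nsq_mask_row Tᶜ T K (by simpa using ha)]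
  exact (levLe_lev h0 h1 a).mass hK h1 (lev_nonneg a)

/-! ## the energy -/

omit [DecidableEq ι] in
theorem En_nonneg (K : Matrix ι ι ℂ) (f : ι → ℝ) : 0 ≤ En K f := by unfold En; positivity

omit [DecidableEq ι] in
theorem En_sub_const (K : Matrix ι ι ℂ) (f : ι → ℝ) (c : ℝ) : En K (fun a => f a - c) = En K f := by
  simp [En]

omit [DecidableEq ι] in
theorem En_eq {K : Matrix ι ι ℂ} (hs : K.IsSymm) (g : ι → ℝ) :
    En K g = ∑ a, g a ^ 2 * ∑ b, ‖K a b‖ ^ 2 - ∑ a, ∑ b, ‖K a b‖ ^ 2 * (g a * g b) := by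
  have h1 : ∑ a, ∑ b, ‖K a b‖ ^ 2 * g b ^ 2 = ∑ a, ∑ b, ‖K a b‖ ^ 2 * g a ^ 2 := by
    rw [Finset.sum_comm]
    exact Finset.sum_congr rfl fun a _ => Finset.sum_congr rfl fun b _ => by rw [hs.apply]
  have h2 : ∑ a, ∑ b, ‖K a b‖ ^ 2 * (g a - g b) ^ 2 = ∑ a, ∑ b, ‖K a b‖ ^ 2 * g a ^ 2 +
      ∑ a, ∑ b, ‖K a b‖ ^ 2 * g b ^ 2 - 2 * ∑ a, ∑ b, ‖K a b‖ ^ 2 * (g a * g b) := by
    simp only [Finset.mul_sum, ← Finset.sum_add_distrib, ← Finset.sum_sub_distrib]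
    exact Finset.sum_congr rfl fun a _ => Finset.sum_congr rfl fun b _ => by ring
  have h3 : ∑ a, g a ^ 2 * ∑ b, ‖K a b‖ ^ 2 = ∑ a, ∑ b, ‖K a b‖ ^ 2 * g a ^ 2 := by
    simp only [Finset.mul_sum, mul_comm]
  rw [En, h2, h1, h3]; ring

omit [DecidableEq ι] in
theorem En_le_of_norm_le {K K' : Matrix ι ι ℂ} (h : ∀ a b, ‖K a b‖ ≤ ‖K' a b‖) (f : ι → ℝ) :
    En K f ≤ En K' f := by
  unfold En
  gcongr with a _ b
  exact h a b

/-- upper bound: deleting the ports of `T` lowers the energy -/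
theorem En_mask_le (K : Matrix ι ι ℂ) (R : Finset ι) (f : ι → ℝ) : En (mask R R K) f ≤ En K f :=
  En_le_of_norm_le (fun a b => by rw [mask_apply]; split_ifs <;> simp) f

/-- lower bound: extend by the constant `c` on `T` -/
theorem En_ext {K : Matrix ι ι ℂ} (hs : K.IsSymm) (T : Finset ι) (f : ι → ℝ) (c : ℝ) :
    En K (fun a => if a ∈ T then c else f a) =
      En (mask Tᶜ Tᶜ K) f + ∑ a ∈ Tᶜ, (∑ b ∈ T, ‖K a b‖ ^ 2) * (f a - c) ^ 2 := by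
  set F : ι → ι → ℝ := fun a b => if a ∉ T ∧ b ∈ T then ‖K a b‖ ^ 2 * (f a - c) ^ 2 else 0 with hF
  have h1 : ∀ a b, ‖K a b‖ ^ 2 * ((if a ∈ T then c else f a) - if b ∈ T then c else f b) ^ 2 =
      ‖mask Tᶜ Tᶜ K a b‖ ^ 2 * (f a - f b) ^ 2 + F a b + F b a := by
    intro a b
    by_cases ha : a ∈ T <;> by_cases hb : b ∈ T <;> simp [hF, mask, ha, hb]
    rw [hs.apply]; ring
  have h2 : ∑ a, ∑ b, F a b = ∑ a ∈ Tᶜ, (∑ b ∈ T, ‖K a b‖ ^ 2) * (f a - c) ^ 2 := by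
    rw [← Finset.sum_subset (Finset.subset_univ Tᶜ) (fun i _ hi => by
      simp only [Finset.mem_compl] at hi; simp [hF, hi])]
    refine Finset.sum_congr rfl fun a ha => ?_
    rw [Finset.mem_compl] at ha
    rw [Finset.sum_mul, ← Finset.sum_subset (Finset.subset_univ T) (fun i _ hi => by simp [hF, hi])]
    exact Finset.sum_congr rfl fun b hb => by simp [hF, ha, hb]
  unfold En
  simp only [h1, Finset.sum_add_distrib]
  rw [Finset.sum_comm (f := fun a b => F b a), h2]; ring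

omit [DecidableEq ι] in
theorem tr_bound {κ : Type*} [Fintype κ] {X : Matrix ι ι ℂ} (hX : Bd X 1) (Y : Matrix ι κ ℂ)
    {D : Matrix κ κ ℂ} {C : ℝ} (hC : 0 < C) (hD : Bd D C) :
    ‖∑ a, ∑ b, X a b * (Y * D * Yᵀ) a b‖ ≤ C * ∑ a, nsq (Y a) := by
  have h1 : ∑ a, ∑ b, X a b * (Y * D * Yᵀ) a b = ∑ j, Yᵀ j ⬝ᵥ X *ᵥ (D * Yᵀ) j := by
    rw [Matrix.mul_assoc]
    simp only [dotProduct, mulVec, Finset.mul_sum, transpose_apply]
    rw [Finset.sum_comm (s := (Finset.univ : Finset κ))]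
    refine Finset.sum_congr rfl fun a _ => ?_
    rw [Finset.sum_comm (s := (Finset.univ : Finset κ))]
    refine Finset.sum_congr rfl fun b _ => ?_
    rw [Matrix.mul_apply, Finset.mul_sum]
    exact Finset.sum_congr rfl fun j _ => by ring
  have h2 : ∀ j, ‖Yᵀ j ⬝ᵥ X *ᵥ (D * Yᵀ) j‖ ≤ (C * nsq (Yᵀ j) + nsq ((D * Yᵀ) j) / C) / 2 := by
    intro j
    have h3 := hX.dot (Yᵀ j) ((D * Yᵀ) j)
    have h4 := nsq_nonneg (Yᵀ j)
    have h5 := nsq_nonneg ((D * Yᵀ) j)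
    refine abs_le_of_sq_le_sq' (h3.trans ?_) (by positivity) |>.2
    have : nsq (Yᵀ j) * nsq ((D * Yᵀ) j) = (C * nsq (Yᵀ j)) * (nsq ((D * Yᵀ) j) / C) := by
      field_simp
    rw [this]
    nlinarith [sq_nonneg (C * nsq (Yᵀ j) - nsq ((D * Yᵀ) j) / C)]
  have h3 : ∑ j, nsq (Yᵀ j) = ∑ a, nsq (Y a) := Finset.sum_comm
  have h4 : ∑ j, nsq ((D * Yᵀ) j) ≤ C ^ 2 * ∑ a, nsq (Y a) := by
    have : ∑ j, nsq ((D * Yᵀ) j) = ∑ a, nsq (D *ᵥ Y a) := Finset.sum_comm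
    rw [this, Finset.mul_sum]
    exact Finset.sum_le_sum fun a _ => hD _
  rw [h1]
  refine (norm_sum_le _ _).trans ((Finset.sum_le_sum fun j _ => h2 j).trans ?_)
  rw [← Finset.sum_div, Finset.sum_add_distrib, ← Finset.mul_sum, ← Finset.sum_div, h3]
  have : (∑ j, nsq ((D * Yᵀ) j)) / C ≤ C * ∑ a, nsq (Y a) := by
    rw [div_le_iff₀ hC]; nlinarith
  linarith

theorem relD_factor {Tm : Matrix ι ι ℂ} {Λ : ℝ} (hK : Bd K 1) (h0 : 0 < ζ) (h1 : ζ ≤ 1)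
    (hΛ0 : 0 ≤ Λ) (hT : Bd Tm Λ) (hΛ : ζ * Λ ≤ 1) (hD : Bd (relD K T Tm) 2) :
    ∃ D : Matrix (ι ⊕ ι) (ι ⊕ ι) ℂ, Bd D 5 ∧
      relD K T Tm = (PP K ζ T).toRows₁ * D * ((PP K ζ T).toRows₁)ᵀ := by
  have h1' : ζ ^ 2 ≤ 1 := by nlinarith
  set W := mask Tᶜ T K with hW
  set J : Matrix (ι ⊕ ι) ι ℂ := fromRows 1 0 with hJ
  set Z : Matrix (ι ⊕ ι) ι ℂ := fromRows 0 (diagonal fun i => if i ∈ T then (ζ : ℂ) else 0) with hZ
  have hJ1 : Bd J 1 := fun x => by simp [hJ, fromRows_mulVec, nsq, Fintype.sum_sum_type]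
  have hZ1 : Bd Z ζ := fun x => by
    have := bd_diagonal (d := fun i => if i ∈ T then (ζ : ℂ) else 0) (C := ζ)
      (fun i => by split_ifs <;> simp [h0.le, abs_of_pos h0]) x
    simpa [hZ, fromRows_mulVec, nsq, Fintype.sum_sum_type] using this
  have hW1 : Bd W 1 := hK.mask _ _
  have hV : J * W + Z = VV K ζ Tᶜ T * diagonal fun i => if i ∈ T then (1 : ℂ) else 0 := by
    ext (a | a) b
    · by_cases hb : b ∈ T <;> simp [hJ, hZ, hW, VV, fromRows_mul, mask, hb]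
    · by_cases hab : a = b
      · subst hab
        by_cases hb : a ∈ T <;> simp [hJ, hZ, VV, fromRows_mul, hb]
      · simp [hJ, hZ, VV, fromRows_mul, hab]
  have hP : (PP K ζ T).toRows₁ * (J * W + Z) = W := by
    have : PP K ζ T * (J * W + Z) = J * W + Z := by
      rw [hV, ← Matrix.mul_assoc, PP_VV h0 h1']
    ext a b
    have h2 := congrFun (congrFun this (Sum.inl a)) b
    simp only [hJ, hZ, fromRows_mul, Matrix.one_mul, Matrix.add_apply, fromRows_apply_inl,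
      Matrix.zero_apply, add_zero] at h2
    rw [← h2]
    simp only [hJ, hZ, fromRows_mul, Matrix.one_mul]
    rfl
  refine ⟨(J * W + Z) * Tm * (J * W + Z)ᵀ, ?_, ?_⟩
  · have e : (J * W + Z) * Tm * (J * W + Z)ᵀ = J * relD K T Tm * Jᵀ + J * W * Tm * Zᵀ +
        Z * Tm * (J * W)ᵀ + Z * Tm * Zᵀ := by
      simp only [relD, ← hW, transpose_add, transpose_mul, Matrix.add_mul, Matrix.mul_add,
        Matrix.mul_assoc]
      abel
    rw [e]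
    have b1 := (hJ1.mul hD).mul hJ1.transpose
    have b2 := ((hJ1.mul hW1).mul hT).mul hZ1.transpose
    have b3 := (hZ1.mul hT).mul (hJ1.mul hW1).transpose
    have b4 := (hZ1.mul hT).mul hZ1.transpose
    refine (((b1.add b2 (by positivity) (by positivity)).add b3 (by positivity)
      (by positivity)).add b4 (by positivity) (by positivity)).mono (by positivity) ?_
    have : ζ * Λ * ζ ≤ 1 * 1 := by gcongr
    nlinarith
  · conv_lhs => rw [relD, ← hW, ← hP]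
    simp only [transpose_mul, Matrix.mul_assoc]

/-- **Release of forms.**  `K1 = K[Tᶜ,Tᶜ] + W Tm Wᵀ` is the matrix after closing `T`. -/
theorem En_release {K1 Tm : Matrix ι ι ℂ} {Λ : ℝ} (hW : Ward K) (hs : K.IsSymm) (hW1 : Ward K1)
    (hs1 : K1.IsSymm) (h0 : 0 < ζ) (h1 : ζ ≤ 1) (hΛ0 : 0 ≤ Λ) (hT : Bd Tm Λ) (hΛ : ζ * Λ ≤ 1)
    (hK1 : K1 = mask Tᶜ Tᶜ K + relD K T Tm) (f : ι → ℝ) (c : ℝ) :
    |En K1 f - En (mask Tᶜ Tᶜ K) f| ≤ 17 * ∑ a, lev K ζ T a * (f a - c) ^ 2 := by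
  have h1' : ζ ^ 2 ≤ 1 := by nlinarith
  have hK0 : Bd (mask Tᶜ Tᶜ K) 1 := hW.bd.mask _ _
  have hD : Bd (relD K T Tm) 2 := by
    have : relD K T Tm = K1 - mask Tᶜ Tᶜ K := by rw [hK1]; abel
    rw [this]
    exact (hW1.bd.sub hK0 zero_le_one zero_le_one).mono (by norm_num) (by norm_num)
  obtain ⟨D, hD5, hfac⟩ := relD_factor hW.bd h0 h1 hΛ0 hT hΛ hD
  have hs0 : (mask Tᶜ Tᶜ K).IsSymm := by rw [Matrix.IsSymm, mask_transpose, hs.eq]
  rw [← En_sub_const K1 f c, ← En_sub_const _ f c, En_eq hs1, En_eq hs0]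
  set g : ι → ℝ := fun a => f a - c with hg
  change _ ≤ 17 * ∑ a, lev K ζ T a * g a ^ 2
  set Ξ := (PP K ζ T).toRows₁ with hΞ
  set S := ∑ a, lev K ζ T a * g a ^ 2 with hS
  have hdiag : ∀ a, |∑ b, ‖K1 a b‖ ^ 2 - ∑ b, ‖mask Tᶜ Tᶜ K a b‖ ^ 2| ≤ 7 * lev K ζ T a := by
    intro a
    have hDa : ‖relD K T Tm a a‖ ≤ 5 * lev K ζ T a := by
      have h2 := hD5.dot (Ξ a) (Ξ a)
      have h3 : relD K T Tm a a = Ξ a ⬝ᵥ D *ᵥ Ξ a := by
        rw [hfac, Matrix.mul_assoc]; rfl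
      rw [h3]
      have h4 : nsq (Ξ a) = lev K ζ T a := rfl
      rw [h4] at h2
      have := lev_nonneg (K := K) (ζ := ζ) (T := T) a
      exact abs_le_of_sq_le_sq' (h2.trans (by nlinarith)) (by positivity) |>.2
    have h5 := (Complex.abs_im_le_norm _).trans hDa
    rw [hW1.row hs1, hK1, Matrix.add_apply, Complex.add_im]
    by_cases ha : a ∈ T
    · have := lev_nonneg (K := K) (ζ := ζ) (T := T) a
      simp only [mask_apply, Finset.mem_compl, ha, not_true, false_and, if_false]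
      simp only [Complex.zero_im, zero_add, norm_zero, ne_eq, OfNat.ofNat_ne_zero,
        not_false_eq_true, zero_pow, sum_const_zero, sub_zero]
      linarith
    · have h6 := mass_le_lev hW.bd h0 h1' ha
      have h7 : ∑ b, ‖mask Tᶜ Tᶜ K a b‖ ^ 2 = (K a a).im - ∑ b ∈ T, ‖K a b‖ ^ 2 := by
        rw [← hW.row hs, ← Finset.sum_add_sum_compl T fun b => ‖K a b‖ ^ 2, add_sub_cancel_left]
        exact nsq_mask_row Tᶜ Tᶜ K (by simpa using ha)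
      have h8 : mask Tᶜ Tᶜ K a a = K a a := by simp [mask, ha]
      have h9 : 0 ≤ ∑ b ∈ T, ‖K a b‖ ^ 2 := by positivity
      rw [h7, h8, abs_le] at *
      constructor <;> linarith [h5.1, h5.2]
  have hY : ∑ a, nsq ((diagonal (fun a => (g a : ℂ)) * Ξ) a) = S := by
    refine Finset.sum_congr rfl fun a _ => ?_
    have : (diagonal (fun a => (g a : ℂ)) * Ξ) a = (g a : ℂ) • Ξ a := by
      funext k; simp
    rw [this, nsq_smul, Complex.norm_real, Real.norm_eq_abs, sq_abs, mul_comm]; rfl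
  have hYD : ∀ a b, ((diagonal (fun a => (g a : ℂ)) * Ξ) * D *
      (diagonal (fun a => (g a : ℂ)) * Ξ)ᵀ) a b = g a * relD K T Tm a b * g b := by
    intro a b
    rw [hfac, transpose_mul, diagonal_transpose, Matrix.mul_assoc (diagonal _),
      ← Matrix.mul_assoc _ Ξᵀ, Matrix.mul_assoc (diagonal _), mul_diagonal, diagonal_mul]
  have t1 := tr_bound hW1.bd.conj (diagonal (fun a => (g a : ℂ)) * Ξ) (by norm_num) hD5
  have t2 := tr_bound hK0.conj (diagonal (fun a => (g a : ℂ)) * Ξ) (by norm_num) hD5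
  simp only [hY, hYD, map_apply] at t1 t2
  have t1' := (Complex.abs_re_le_norm _).trans t1
  have t2' := (Complex.abs_re_le_norm _).trans t2
  have e : ∑ a, ∑ b, ‖K1 a b‖ ^ 2 * (g a * g b) - ∑ a, ∑ b, ‖mask Tᶜ Tᶜ K a b‖ ^ 2 * (g a * g b) =
      (∑ a, ∑ b, star (K1 a b) * (g a * relD K T Tm a b * g b)).re +
      (∑ a, ∑ b, star (mask Tᶜ Tᶜ K a b) * (g a * relD K T Tm a b * g b)).re := by
    simp only [Complex.re_sum, ← Finset.sum_add_distrib, ← Finset.sum_sub_distrib]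
    refine Finset.sum_congr rfl fun a _ => Finset.sum_congr rfl fun b _ => ?_
    rw [hK1, Matrix.add_apply, Complex.sq_norm, Complex.sq_norm]
    simp [Complex.normSq_apply]; ring
  have e2 : |∑ a, g a ^ 2 * ∑ b, ‖K1 a b‖ ^ 2 - ∑ a, g a ^ 2 * ∑ b, ‖mask Tᶜ Tᶜ K a b‖ ^ 2| ≤
      7 * S := by
    rw [← Finset.sum_sub_distrib, hS, Finset.mul_sum]
    refine (Finset.abs_sum_le_sum_abs _ _).trans (Finset.sum_le_sum fun a _ => ?_)
    rw [← mul_sub, abs_mul, abs_of_nonneg (sq_nonneg _)]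
    have := hdiag a
    nlinarith [sq_nonneg (g a)]
  rw [abs_le] at *
  constructor <;> linarith [t1'.1, t1'.2, t2'.1, t2'.2, e2.1, e2.2]

end Crest.Agent.N334.AC
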